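import Vale.Agent.P257.H80.HazTyp

/-!
# P257: the `p`-series of Hazewinkel's law

`v_k` is the coefficient of `x^{p^k}` in the `p`-series modulo `(p, v_1, …, v_{k-1})`.
-/

namespace Vale.Agent.P257.H80

open MvPowerSeries Finsupp Vale.Agent.P217 Vale.Agent.P251.F

variable (p : ℕ) [hp : Fact p.Prime]

/-- the specialisation `v_i = 0` -/
noncomputable def spZ (B : Type*) [CommRing B] : MvPolynomial ℕ ℤ →+* B :=
  MvPolynomial.eval₂Hom (Int.castRingHom B) fun _ => 0

theorem haz_spZ (B : Type*) [CommRing B] : (haz p).map (spZ B) = addLaw B := by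
  have h1 : (haz p).map (spZ ℤ) = addLaw ℤ := by
    have hinj : Function.Injective (Int.castRingHom ℚ) := Int.cast_injective
    have e1 : (Int.castRingHom ℚ).comp (spZ ℤ) = (MvPolynomial.eval₂Hom (RingHom.id ℚ)
        fun _ => 0 : MvPolynomial ℕ ℚ →+* ℚ).comp hzI := by
      apply MvPolynomial.ringHom_ext
      · intro r
        simp
      · intro i
        simp [spZ]
    set ψ : MvPolynomial ℕ ℚ →+* ℚ := MvPolynomial.eval₂Hom (RingHom.id ℚ) fun _ => 0 with hψ
    have hell : ∀ m, ψ (ell p (m + 1)) = 0 := by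
      intro m
      rw [ell_succ, map_mul, map_sum, Finset.sum_eq_zero, mul_zero]
      intro i _
      have h0 : ψ (MvPolynomial.X (m - i)) = 0 := by simp [hψ]
      rw [map_mul, map_pow, h0, zero_pow (pow_ne_zero _ hp.out.ne_zero), mul_zero]
    have h2 : InvSeries.map ψ (hazInv p) = 1 := by
      apply InvSeries.ext_c
      intro n
      rw [InvSeries.c_map, hazInv_c]
      rcases n with _ | n
      · rw [InvSeries.c_zero_one, zero_add, hazLog_one, map_one]
      · rw [InvSeries.c_one_succ]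
        by_cases hn : ∃ m, n + 1 + 1 = p ^ m
        · obtain ⟨m, hm⟩ := hn
          rw [hm, hazLog_coeff_pow]
          rcases m with _ | m
          · rw [pow_zero] at hm
            omega
          · exact hell m
        · rw [hazLog_coeff_of_ne p fun m hm' => hn ⟨m, hm'⟩, map_zero]
    have h3 : ((haz p).map (spZ ℤ)).map (Int.castRingHom ℚ) = addLaw ℚ := by
      rw [Law.map_map, e1, ← Law.map_map, haz_map, hazQ, InvSeries.map_smul, map_inv, h2, inv_one,
        one_smul, map_addLaw]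
    apply Law.ext_ps
    ext d
    apply hinj
    rw [← coeff_map, ← Law.map_ps, h3, ← coeff_map, ← Law.map_ps, map_addLaw]
  have h2 : spZ B = (Int.castRingHom B).comp (spZ ℤ) := by
    apply MvPolynomial.ringHom_ext
    · intro r
      simp
    · intro i
      simp [spZ]
  rw [h2, ← Law.map_map, h1, map_addLaw]

variable {B : Type*} [CommRing B]

theorem xC_addLaw (n : ℕ) : xC (addLaw B) n = 0 := by
  classical
  unfold xC
  refine Finset.sum_eq_zero fun i hi => ?_
  rw [Finset.mem_Ioo] at hi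
  have h0 : ∀ s : Fin 2, e2 i (n + 2 - i) ≠ single s 1 := by
    intro s h
    have := congrArg Finsupp.degree h
    rw [degree_e2, Finsupp.degree_single] at this
    omega
  rw [addLaw_ps, map_add, coeff_X, coeff_X, if_neg (h0 0), if_neg (h0 1), add_zero, smul_zero]

theorem mulS_addLaw (m : ℕ) : mulS (addLaw B).ps m = (m : PowerSeries B) * PowerSeries.X := by
  induction m with
  | zero =>
    rw [Nat.cast_zero, zero_mul]
    rfl
  | succ m ih =>
    rw [mulS_succ, ih, addLaw_ps]
    have hs : MvPowerSeries.HasSubst ![((m : PowerSeries B) * PowerSeries.X :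
        MvPowerSeries Unit B), PowerSeries.X] :=
      hasSubst_of_ordI (pair_mem (natCast_mul_X_mem m) psX_mem)
    have h1 := MvPowerSeries.subst_add hs (X 0 : MvPowerSeries (Fin 2) B) (X 1)
    refine Eq.trans h1 ?_
    rw [MvPowerSeries.subst_X hs, MvPowerSeries.subst_X hs, Nat.cast_succ, add_mul, one_mul]
    rfl

/-- the leading coefficient of the `p`-series, if `p = v_1 = … = v_k = 0` -/
theorem vv_haz_of_zero (hB : (p : B) = 0) {φ : MvPolynomial ℕ ℤ →+* B} {k : ℕ}
    (h : ∀ j < k, φ (MvPolynomial.X j) = 0) :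
    vv p (k + 1) ((haz p).map φ) = φ (MvPolynomial.X k) := by
  obtain ⟨n, hn⟩ : ∃ n, n + 2 = p ^ (k + 1) :=
    ⟨p ^ (k + 1) - 2, Nat.sub_add_cancel (two_le_pow hp.out (Nat.succ_ne_zero k))⟩
  have hn' : p ^ (k + 1) - 2 = n := by omega
  have hc := haz_compare p (φ := φ) (φ' := spZ B) (k := k) (fun j hj => by
    rw [h j hj]
    simp [spZ])
  have h0 : spZ B (MvPolynomial.X k) = 0 := by simp [spZ]
  rw [haz_spZ, hn', ← hn, xC_addLaw, h0, sub_zero, sub_zero] at hc
  set F := (haz p).map φ with hF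
  have h1 := law_compare hc.1
  have key := coeff_mulS_compare (isLaw_formalGroup F.toFG)
    (isLaw_formalGroup (addLaw B).toFG) (by omega) hc.1 ⊥ (xC F n)
    (by
      rw [AddSubgroup.mem_bot]
      have h2 := h1 (e2 0 (n + 2)) (by rw [degree_e2]; omega)
      rw [map_sub, coeff_C_mul, coeff_CPS_of_not _ _ _ (by omega), mul_zero, sub_zero] at h2
      exact h2)
    (by
      rw [AddSubgroup.mem_bot]
      have h2 := h1 (e2 (n + 2) 0) (by rw [degree_e2]; omega)
      rw [map_sub, coeff_C_mul, coeff_CPS_of_not _ _ _ (by omega), mul_zero, sub_zero] at h2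
      exact h2)
    (fun i hi hiN => by
      rw [AddSubgroup.mem_bot]
      have h2 := h1 (e2 i (n + 2 - i)) (by rw [degree_e2]; omega)
      rw [map_sub, coeff_C_mul, coeff_CPS _ _ _ (by omega) (by omega) (by omega), xC_addLaw,
        sub_zero, mul_comm, ← nsmul_eq_mul] at h2
      exact h2) p
  rw [AddSubgroup.mem_bot] at key
  set T := ∑ j ∈ Finset.range p, ∑ i ∈ Finset.Ioo 0 (n + 2), cC (n + 2) i * j ^ i with hT
  have h2 : dC (n + 2) * T + p = p ^ (n + 2) := dC_mul_sum (by omega) p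
  have h3 : T + 1 = p ^ (n + 1) := by
    have h4 : dC (n + 2) = p := by rw [hn]; exact dC_pow hp.out (Nat.succ_ne_zero k)
    rw [h4] at h2
    have h5 : p * (T + 1) = p * p ^ (n + 1) := by
      rw [← pow_succ', mul_add, mul_one]
      exact h2
    exact Nat.eq_of_mul_eq_mul_left hp.out.pos h5
  have h6 : (T : B) = -1 := by
    have h7 : ((T + 1 : ℕ) : B) = 0 := by
      rw [h3, Nat.cast_pow, hB, zero_pow (Nat.succ_ne_zero n)]
    rw [Nat.cast_add, Nat.cast_one] at h7
    linear_combination h7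
  have h8 : PowerSeries.coeff (n + 2) (mulS (addLaw B).toFG.toPowerSeries p) = 0 := by
    have h9 : mulS (addLaw B).toFG.toPowerSeries p = (p : PowerSeries B) * PowerSeries.X :=
      mulS_addLaw p
    rw [h9, ← map_natCast (PowerSeries.C (R := B)), PowerSeries.coeff_C_mul,
      PowerSeries.coeff_X, if_neg (by omega), mul_zero]
  rw [h8, nsmul_eq_mul, h6, sub_zero] at key
  have h9 : PowerSeries.coeff (n + 2) (mulS F.toFG.toPowerSeries p) = vv p (k + 1) F := by
    rw [vv, ← hn]
    rfl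
  rw [h9] at key
  linear_combination key - hc.2

/-- the ideal `(p, v_1, …, v_k)` -/
def HI (φ : MvPolynomial ℕ ℤ →+* B) (k : ℕ) : Ideal B :=
  Ideal.span (insert (p : B) ((fun j => φ (MvPolynomial.X j)) '' {j | j < k}))

omit hp in
theorem HI_zero (φ : MvPolynomial ℕ ℤ →+* B) : HI p φ 0 = Ideal.span {(p : B)} := by
  simp [HI]

omit hp in
theorem HI_succ (φ : MvPolynomial ℕ ℤ →+* B) (k : ℕ) :
    HI p φ (k + 1) = HI p φ k ⊔ Ideal.span {φ (MvPolynomial.X k)} := by
  unfold HI
  rw [← Ideal.span_union]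
  congr 1
  ext x
  simp only [Set.mem_insert_iff, Set.mem_image, Set.mem_setOf_eq, Set.mem_union,
    Set.mem_singleton_iff]
  constructor
  · rintro (h | ⟨j, hj, rfl⟩)
    · exact Or.inl (Or.inl h)
    · rcases Nat.lt_or_ge j k with hjk | hjk
      · exact Or.inl (Or.inr ⟨j, hjk, rfl⟩)
      · obtain rfl : j = k := by omega
        exact Or.inr rfl
  · rintro ((h | ⟨j, hj, rfl⟩) | rfl)
    · exact Or.inl h
    · exact Or.inr ⟨j, by omega, rfl⟩
    · exact Or.inr ⟨k, Nat.lt_succ_self k, rfl⟩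

omit hp in
theorem mem_HI {φ : MvPolynomial ℕ ℤ →+* B} {j k : ℕ} (h : j < k) :
    φ (MvPolynomial.X j) ∈ HI p φ k :=
  Ideal.subset_span (Set.mem_insert_of_mem _ ⟨j, h, rfl⟩)

omit hp in
theorem p_mem_HI {φ : MvPolynomial ℕ ℤ →+* B} (k : ℕ) : (p : B) ∈ HI p φ k :=
  Ideal.subset_span (Set.mem_insert _ _)

theorem vv_haz_sub_mem (φ : MvPolynomial ℕ ℤ →+* B) (k : ℕ) :
    vv p (k + 1) ((haz p).map φ) - φ (MvPolynomial.X k) ∈ HI p φ k := by
  rw [← Ideal.Quotient.eq_zero_iff_mem, map_sub, ← vv_map, Law.map_map, vv_haz_of_zero p (k := k)]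
  · rw [RingHom.comp_apply, sub_self]
  · rw [← map_natCast (Ideal.Quotient.mk (HI p φ k)), Ideal.Quotient.eq_zero_iff_mem]
    exact p_mem_HI p k
  · intro j hj
    rw [RingHom.comp_apply, Ideal.Quotient.eq_zero_iff_mem]
    exact mem_HI p hj

omit hp in
theorem Ih_succ' (h : ℕ) (F : Law B) : Ih p (h + 1) F = Ih p h F ⊔ Ideal.span {vv p h F} := by
  unfold Ih
  rw [← Ideal.span_union]
  congr 1
  ext x
  simp only [Set.mem_setOf_eq, Set.mem_union, Set.mem_singleton_iff]
  constructor
  · rintro ⟨i, hi, rfl⟩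
    rcases Nat.lt_or_ge i h with hih | hih
    · exact Or.inl ⟨i, hih, rfl⟩
    · obtain rfl : i = h := by omega
      exact Or.inr rfl
  · rintro (⟨i, hi, rfl⟩ | rfl)
    · exact ⟨i, by omega, rfl⟩
    · exact ⟨h, Nat.lt_succ_self h, rfl⟩

/-- **`(v_0, …, v_k) = (p, v_1, …, v_k)`** for Hazewinkel's law. -/
theorem Ih_haz (φ : MvPolynomial ℕ ℤ →+* B) (k : ℕ) : Ih p (k + 1) ((haz p).map φ) = HI p φ k := by
  induction k with
  | zero =>
    rw [Ih_succ', HI_zero, vv_zero]
    have h : Ih p 0 ((haz p).map φ) = ⊥ := by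
      unfold Ih
      rw [Ideal.span_eq_bot]
      rintro x ⟨i, hi, -⟩
      exact absurd hi (Nat.not_lt_zero i)
    rw [h, bot_sup_eq]
  | succ k ih =>
    rw [Ih_succ', ih, HI_succ]
    have h1 := vv_haz_sub_mem p φ k
    apply le_antisymm
    · refine sup_le le_sup_left ?_
      rw [Ideal.span_singleton_le_iff_mem]
      have h2 : vv p (k + 1) ((haz p).map φ) = (vv p (k + 1) ((haz p).map φ) -
          φ (MvPolynomial.X k)) + φ (MvPolynomial.X k) := by ring
      rw [h2]
      exact Ideal.add_mem _ (Ideal.mem_sup_left h1)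
        (Ideal.mem_sup_right (Ideal.mem_span_singleton_self _))
    · refine sup_le le_sup_left ?_
      rw [Ideal.span_singleton_le_iff_mem]
      have h2 : φ (MvPolynomial.X k) = vv p (k + 1) ((haz p).map φ) -
        (vv p (k + 1) ((haz p).map φ) - φ (MvPolynomial.X k)) := by ring
      rw [h2]
      exact Ideal.sub_mem _ (Ideal.mem_sup_right (Ideal.mem_span_singleton_self _))
        (Ideal.mem_sup_left h1)

end Vale.Agent.P257.H80
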