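import Vale.Agent.P257.H80.LocMon
import Vale.Agent.P251.X.Split
import Vale.Agent.P251.X.RetMon

/-!
# P257 (helper80): the Quillen idempotent and the Brown-Peterson monoid
-/

open CategoryTheory MonoidalCategory MonObj Limits Pretriangulated

set_option linter.unusedSectionVars false

universe u

namespace Vale.Agent.P257.H80

open Vale.Agent.P251 Vale.Agent.P251.S Vale.Agent.P251.T Vale.Agent.P251.M Vale.Agent.P251.F
  Vale.Agent.P251.I EvenSpheres

variable {𝒯 : Type u} [Category.{0} 𝒯] [Preadditive 𝒯] [HasZeroObject 𝒯]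
    [HasShift 𝒯 ℤ] [∀ n : ℤ, (shiftFunctor 𝒯 n).Additive] [Pretriangulated 𝒯] [IsTriangulated 𝒯]
    [MonoidalCategory 𝒯] [SymmetricCategory 𝒯] [TensorTriangulated 𝒯] [MonoidalClosed 𝒯]
    [HasCoproducts.{0} 𝒯] [HasProducts.{0} 𝒯] [StableCat 𝒯]
  {F : SpaceFunctor 𝒯} {e : F.S.obj CCF ≅ (stdEven 𝒯).L} {D : MUData 𝒯}
  {p : ℕ} [Fact p.Prime]

section typ

variable (hD : MUUniv e D) {K : 𝒯} [MonObj K] [IsCommMonObj K] (hK : LocO p K)
  (u : D.R ⟶ K) [IsMonHom u]

include hD in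
theorem exists_typM : ∃ (u' : D.R ⟶ K) (_ : IsMonHom u'),
    ser u u' = strictMk (bS p (typ p (pLoc_of_locO hK) (lawOf u))) := by
  refine exists_of_ser hD u _ fun m => ?_
  unfold bS
  split_ifs
  · refine ⟨0, ?_⟩
    exact ((DirectSum.of ((stdEven 𝒯).Gr K) _).map_zero).symm
  · exact isHomog_typ (pLoc_of_locO hK) u m

/-- the `p`-typical monoid map associated with `u : MU ⟶ K` -/
noncomputable def typM : D.R ⟶ K := (exists_typM hD hK u).choose

instance : IsMonHom (typM hD hK u) := (exists_typM hD hK u).choose_spec.choose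

theorem ser_typM : ser u (typM hD hK u) = strictMk (bS p (typ p (pLoc_of_locO hK) (lawOf u))) :=
  (exists_typM hD hK u).choose_spec.choose_spec

theorem lawOf_typM :
    lawOf (typM hD hK u) = (haz p).map (vS p (typ p (pLoc_of_locO hK) (lawOf u))) := by
  rw [← ser_smul u (typM hD hK u), ser_typM]
  exact isTyp_typ p (pLoc_of_locO hK) (lawOf u)

/-- a `p`-typical map is fixed -/
theorem typM_eq {φ : MvPolynomial ℕ ℤ →+* HRing (stdEven 𝒯) K} (h : lawOf u = (haz p).map φ) :
    typM hD hK u = u := by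
  apply eq_of_ser hD (u := u)
  rw [ser_typM, ser_self, h, typ_haz, bS_seqV, strictMk_zero]

theorem typM_comp {K' : 𝒯} [MonObj K'] [IsCommMonObj K'] (hK' : LocO p K') (f : K ⟶ K')
    [IsMonHom f] : typM hD hK' (u ≫ f) = typM hD hK u ≫ f := by
  apply eq_of_ser hD (u := u ≫ f)
  rw [ser_typM, ser_comp, ser_typM, map_strictMk]
  congr 1
  funext n
  rw [map_bS]
  congr 1
  funext m
  rw [lawOf_comp]
  exact typ_map p (pLoc_of_locO hK) (pLoc_of_locO hK') _ _ m

theorem typM_congr {u u' : D.R ⟶ K} [IsMonHom u] [IsMonHom u'] (h : u = u') :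
    typM hD hK u = typM hD hK u' := by
  subst h
  rfl

omit [Fact p.Prime] in
theorem lawOf_congr {u u' : D.R ⟶ K} [IsMonHom u] [IsMonHom u'] (h : u = u') :
    lawOf u = lawOf u' := by
  subst h
  rfl

end typ

/-- The Brown-Peterson monoid at `p`: a `p`-local commutative monoid `B` under `MU` whose formal
group law is a Hazewinkel law, and which is universal with this property. -/
structure IsBPMon (p : ℕ) [Fact p.Prime] {B : 𝒯} [MonObj B] [IsCommMonObj B] (b : D.R ⟶ B) [IsMonHom b] : Prop where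
  loc : LocO p B
  law : ∃ φ, lawOf b = (haz p).map φ
  exists_map (K : 𝒯) [MonObj K] [IsCommMonObj K] (hK : LocO p K) (u : D.R ⟶ K) [IsMonHom u]
    (φ : MvPolynomial ℕ ℤ →+* HRing (stdEven 𝒯) K) (hφ : lawOf u = (haz p).map φ) :
    ∃ (f : B ⟶ K) (_ : IsMonHom f), b ≫ f = u
  uniq (K : 𝒯) (hK : LocO p K) (f g : B ⟶ K) (h : b ≫ f = b ≫ g) : f = g

/-- **Existence of the Brown-Peterson monoid**, as a retract of a `p`-localization of `MU`. -/
theorem exists_bpMon (hD : MUUniv e D) {Rp : 𝒯} [MonObj Rp] [IsCommMonObj Rp] {l : D.R ⟶ Rp}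
    [IsMonHom l] (h : IsLoc p l) :
    ∃ (B : 𝒯) (_ : MonObj B) (_ : IsCommMonObj B) (s : B ⟶ Rp) (r : Rp ⟶ B) (_ : IsMonHom s)
      (_ : IsMonHom r), s ≫ r = 𝟙 B ∧ IsBPMon p (l ≫ r) := by
  obtain ⟨ε, hε, hl⟩ := h.exists_mon h.loc (typM hD h.loc l)
  -- `ε` is idempotent
  have hidem : ε ≫ ε = ε := by
    apply h.ext h.loc
    rw [← Category.assoc, hl, ← typM_comp hD h.loc l h.loc ε]
    exact (typM_congr hD h.loc hl).trans (typM_eq hD h.loc _ (lawOf_typM hD h.loc l))
  obtain ⟨B, s, r, hsr, hrs⟩ := X.exists_split ε hidem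
  have hret : X.IsRetMon s r := ⟨hsr, by rw [hrs]; exact hε⟩
  let i1 : MonObj B := hret.monObj
  have i2 : IsCommMonObj B := hret.isCommMonObj
  have i3 : IsMonHom s := hret.isMonHom_s
  have i4 : IsMonHom r := hret.isMonHom_r
  have hB : LocO p B := h.loc.retract s r hsr
  have h1 : typM hD h.loc l ≫ r = l ≫ r := by
    rw [← hl, Category.assoc, ← hrs, Category.assoc, hsr, Category.comp_id]
  refine ⟨B, i1, i2, s, r, i3, i4, hsr, hB, ?_, ?_, ?_⟩
  · refine ⟨_, (?_ : lawOf (l ≫ r) = _).trans (lawOf_typM hD hB (l ≫ r))⟩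
    have h2 : typM hD hB (l ≫ r) = l ≫ r := by rw [typM_comp hD h.loc l hB r, h1]
    exact (lawOf_congr h2).symm
  · intro K _ _ hK u _ φ hφ
    obtain ⟨v, hv, hlv⟩ := h.exists_mon hK u
    refine ⟨s ≫ v, inferInstance, ?_⟩
    rw [Category.assoc, ← Category.assoc r, hrs, ← Category.assoc, hl,
      ← typM_comp hD h.loc l hK v]
    exact (typM_congr hD hK hlv).trans (typM_eq hD hK u hφ)
  · intro K hK f g hfg
    have h2 : r ≫ f = r ≫ g := by
      apply h.ext hK
      rw [← Category.assoc, ← Category.assoc, hfg]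
    rw [← Category.id_comp f, ← Category.id_comp g, ← hsr, Category.assoc, Category.assoc, h2]

end Vale.Agent.P257.H80
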