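import Vale.Agent.P257.H702.RegMU
import Vale.Agent.P257.H702.Change
import Vale.Agent.P257.H80.Idem
import Vale.Agent.P257.H80.HazVV

/-!
# P257 (helper80): regularity of `v_0, v_1, …` on the homotopy of the Brown-Peterson monoid
-/

open CategoryTheory MonoidalCategory MonObj Limits Pretriangulated

set_option linter.unusedSectionVars false

universe v u

namespace Vale.Agent.P257.H80

open Vale.Agent.P251 Vale.Agent.P251.S Vale.Agent.P251.T Vale.Agent.P251.M Vale.Agent.P251.F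
  Vale.Agent.P251.I EvenSpheres Vale.Agent.P257.H702

section inI

variable {T : Type u} [Category.{v} T] [Preadditive T] [HasZeroObject T] [HasShift T ℤ]
  [∀ n : ℤ, (shiftFunctor T n).Additive] [Pretriangulated T]
  [MonoidalCategory T] [SymmetricCategory T] [TensorTriangulated T]
  {K K' : T} [MonObj K] [MonObj K'] {S : ℕ → T} {v w : ∀ i, S i ⟶ K}

/-- images under monoid maps -/
theorem inI_map {n : ℕ} {A : T} {a : A ⟶ K} (h : InI v n a) (f : K ⟶ K') [IsMonHom f] :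
    InI (fun i => v i ≫ f) n (a ≫ f) := by
  obtain ⟨b, rfl⟩ := h
  refine ⟨fun i => b i ≫ f ▷ S i, ?_⟩
  rw [Preadditive.sum_comp]
  refine Finset.sum_congr rfl fun i _ => ?_
  simp only [Category.assoc, IsMonHom.mul_hom, tensorHom_def, MonoidalCategory.whiskerLeft_comp]
  rw [whisker_exchange_assoc]

theorem pr_map {A S₀ : T} (a : A ⟶ K) (x : S₀ ⟶ K) (f : K ⟶ K') [IsMonHom f] :
    H702.pr (a ≫ f) (x ≫ f) = H702.pr a x ≫ f := by
  rw [H702.pr, H702.pr, Category.assoc, IsMonHom.mul_hom, tensorHom_comp_tensorHom_assoc]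

/-- the generators are in the ideal -/
theorem inI_self {n i : ℕ} (hi : i < n) : InI v n (v i) := by
  classical
  refine ⟨fun j => if h : j = i then (λ_ (S i)).inv ≫ η[K] ▷ S i ≫ K ◁ eqToHom (by rw [h]) else 0,
    ?_⟩
  rw [Finset.sum_eq_single i]
  · dsimp only
    rw [dif_pos rfl]
    simp only [eqToHom_refl, MonoidalCategory.whiskerLeft_id, Category.comp_id, Category.assoc]
    rw [← whisker_exchange_assoc, MonObj.one_mul, leftUnitor_naturality, Iso.inv_hom_id_assoc]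
  · intro j _ hj
    dsimp only
    rw [dif_neg hj, zero_comp]
  · intro h
    exact absurd (Finset.mem_range.2 hi) h

theorem inI_neg {n : ℕ} {A : T} {a : A ⟶ K} (h : InI v n a) : InI v n (-a) := by
  obtain ⟨b, rfl⟩ := h
  refine ⟨fun i => - b i, ?_⟩
  simp

theorem inI_sub {n : ℕ} {A : T} {a a' : A ⟶ K} (h : InI v n a) (h' : InI v n a') :
    InI v n (a - a') := by
  rw [sub_eq_add_neg]
  exact h.add v (inI_neg h')

theorem inI_pr_left {n : ℕ} {A S₀ : T} {x : S₀ ⟶ K} (h : InI v n x) (a : A ⟶ K) :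
    InI v n (H702.pr a x) := by
  have h1 : H702.pr a x = (a ▷ S₀) ≫ K ◁ x ≫ μ[K] := by
    rw [H702.pr, tensorHom_def, Category.assoc]
  rw [h1]
  exact h.mul_left (a ▷ S₀)

theorem pr_sub {A S₀ : T} (a : A ⟶ K) (x y : S₀ ⟶ K) :
    H702.pr a (x - y) = H702.pr a x - H702.pr a y := by
  rw [H702.pr, H702.pr, H702.pr, tensorHom_def, tensorHom_def, tensorHom_def]
  have h : K ◁ (x - y) = K ◁ x - K ◁ y := (tensorLeft K).map_sub
  rw [h, Preadditive.comp_sub, Preadditive.sub_comp]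

/-- change of the regular sequence -/
theorem reg_congr {h : ℕ} (hvw : ∀ i < h, InI v i (w i - v i)) (hr : Reg v h) : Reg w h := by
  -- the ideals agree
  have h1 : ∀ n ≤ h, (∀ i < n, InI v n (w i)) := by
    intro n hn i hi
    have h2 : w i = (w i - v i) + v i := by abel
    rw [h2]
    exact ((hvw i (by omega)).mono hi.le).add v (inI_self hi)
  have h2 : ∀ n ≤ h, ∀ i < n, InI w n (v i) := by
    intro n
    induction n with
    | zero => intro _ i hi; omega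
    | succ n ih =>
      intro hn i hi
      rcases Nat.lt_succ_iff_lt_or_eq.1 hi with hi' | rfl
      · exact (ih (by omega) i hi').mono (Nat.le_succ n)
      · have h3 : v i = w i - (w i - v i) := by abel
        rw [h3]
        exact inI_sub (inI_self (Nat.lt_succ_self i))
          ((InI.trans (ih (by omega)) (hvw i (by omega))).mono (Nat.le_succ i))
  intro k hk A hA a ha
  refine InI.trans (h2 k hk.le) (hr k hk A hA a ?_)
  have h3 : H702.pr a (v k) = H702.pr a (w k) - H702.pr a (w k - v k) := by rw [pr_sub]; abel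
  rw [h3]
  exact inI_sub (InI.trans (h1 k hk.le) ha) (inI_pr_left (hvw k hk) a)

/-- regularity on a retract -/
theorem reg_retract {h : ℕ} (s : K' ⟶ K) (r : K ⟶ K') [IsMonHom s] [IsMonHom r]
    (hsr : s ≫ r = 𝟙 K') {x : ∀ i, S i ⟶ K'} (hr : Reg (fun i => x i ≫ s) h) : Reg x h := by
  intro k hk A hA a ha
  have h1 := hr k hk A hA (a ≫ s) (by rw [pr_map]; exact inI_map ha s)
  have h2 := inI_map h1 r
  have h3 : (fun i => (x i ≫ s) ≫ r) = x := by
    funext i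
    rw [Category.assoc, hsr, Category.comp_id]
  rwa [h3, Category.assoc, hsr, Category.comp_id] at h2

end inI

section loc

variable {T : Type u} [Category.{v} T] [Preadditive T] [HasZeroObject T] [HasShift T ℤ]
  [∀ n : ℤ, (shiftFunctor T n).Additive] [Pretriangulated T]
  [MonoidalCategory T] [SymmetricCategory T] [TensorTriangulated T]

/-- the effect of a `p`-localization on homotopy groups -/
structure IsLocPi (p : ℕ) {X Y : T} (l : X ⟶ Y) : Prop where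
  num (n : ℤ) (y : (𝟙_ T)⟦n⟧ ⟶ Y) : ∃ (m : ℤ) (x : (𝟙_ T)⟦n⟧ ⟶ X), ¬ (p : ℤ) ∣ m ∧ m • y = x ≫ l
  ker (n : ℤ) (x : (𝟙_ T)⟦n⟧ ⟶ X) (h : x ≫ l = 0) : ∃ m : ℤ, ¬ (p : ℤ) ∣ m ∧ m • x = 0

variable {p : ℕ} {X Y : T} {l : X ⟶ Y}

theorem IsLocPi.num' (h : IsLocPi p l) {A : T} (hA : IsSph A) (y : A ⟶ Y) :
    ∃ (m : ℤ) (x : A ⟶ X), ¬ (p : ℤ) ∣ m ∧ m • y = x ≫ l := by
  obtain ⟨n, ⟨e⟩⟩ := hA
  obtain ⟨m, x, hm, hx⟩ := h.num n (e.inv ≫ y)
  refine ⟨m, e.hom ≫ x, hm, ?_⟩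
  rw [Category.assoc, ← hx, Preadditive.comp_zsmul, Iso.hom_inv_id_assoc]

theorem IsLocPi.ker' (h : IsLocPi p l) {A : T} (hA : IsSph A) (x : A ⟶ X) (hx : x ≫ l = 0) :
    ∃ m : ℤ, ¬ (p : ℤ) ∣ m ∧ m • x = 0 := by
  obtain ⟨n, ⟨e⟩⟩ := hA
  obtain ⟨m, hm, h0⟩ := h.ker n (e.inv ≫ x) (by rw [Category.assoc, hx, comp_zero])
  refine ⟨m, hm, ?_⟩
  rw [← cancel_epi e.inv, Preadditive.comp_zsmul, h0, comp_zero]

/-- denominators of classes in `Y ⊗ S` -/
theorem IsLocPi.numS (h : IsLocPi p l) {S : ℕ → T} (hS : SphAct S) (i : ℕ) {A : T} (hA : IsSph A)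
    (y : A ⟶ Y ⊗ S i) :
    ∃ (m : ℤ) (x : A ⟶ X ⊗ S i), ¬ (p : ℤ) ∣ m ∧ m • y = x ≫ l ▷ S i := by
  obtain ⟨A', hA', ⟨θ⟩⟩ := hS.desus i A hA
  have := hS.inv i
  obtain ⟨g, hg⟩ := H702.whiskerRight_surj (S i) (θ.inv ≫ y)
  obtain ⟨m, x, hm, hx⟩ := h.num' hA' g
  refine ⟨m, θ.hom ≫ x ▷ S i, hm, ?_⟩
  have h1 : (m • g) ▷ S i = m • (g ▷ S i) := (tensorRight (S i)).map_zsmul
  rw [Category.assoc, ← comp_whiskerRight, ← hx, h1, hg, Preadditive.comp_zsmul,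
    Iso.hom_inv_id_assoc]

theorem not_dvd_mul {p : ℕ} (hp : p.Prime) {a b : ℤ} (ha : ¬ (p : ℤ) ∣ a) (hb : ¬ (p : ℤ) ∣ b) :
    ¬ (p : ℤ) ∣ a * b := fun h => by
  rcases (Nat.prime_iff_prime_int.1 hp).dvd_or_dvd h with h | h
  · exact ha h
  · exact hb h

/-- common denominators -/
theorem IsLocPi.common (h : IsLocPi p l) (hp : p.Prime) {S : ℕ → T} (hS : SphAct S) {A : T}
    (hA : IsSph A) (y : ∀ i, A ⟶ Y ⊗ S i) (k : ℕ) :
    ∃ (m : ℤ) (x : ∀ i, A ⟶ X ⊗ S i), ¬ (p : ℤ) ∣ m ∧ ∀ i < k, m • y i = x i ≫ l ▷ S i := by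
  induction k with
  | zero => exact ⟨1, fun _ => 0, fun h => hp.one_lt.ne' (Nat.dvd_one.1 (by exact_mod_cast h)),
      fun i hi => absurd hi (Nat.not_lt_zero i)⟩
  | succ k ih =>
    classical
    obtain ⟨m, x, hm, hx⟩ := ih
    obtain ⟨m', x', hm', hx'⟩ := h.numS hS k hA (y k)
    refine ⟨m * m', Function.update (fun i => m' • x i) k (m • x'), not_dvd_mul hp hm hm', ?_⟩
    intro i hi
    rcases Nat.lt_succ_iff_lt_or_eq.1 hi with hi' | rfl
    · rw [Function.update_of_ne (by omega), Preadditive.zsmul_comp, ← hx i hi', smul_smul,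
        mul_comm]
    · rw [Function.update_self, Preadditive.zsmul_comp, ← hx', smul_smul]

variable {K K' : T} [MonObj K] [MonObj K'] {l : K ⟶ K'} [IsMonHom l] {S : ℕ → T}
  {v : ∀ i, S i ⟶ K}

theorem inI_of_zsmul {m : ℤ} (hm : IsIso (m • 𝟙 K')) {w : ∀ i, S i ⟶ K'} {n : ℕ} {A : T}
    {a : A ⟶ K'} (h : InI w n (m • a)) : InI w n a := by
  obtain ⟨b, hb⟩ := h
  refine ⟨fun i => b i ≫ (inv (m • 𝟙 K')) ▷ S i, ?_⟩
  have key : ∀ {A : T} {f g : A ⟶ K'}, m • f = m • g → f = g := by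
    intro A f g hfg
    rw [← cancel_mono (m • 𝟙 K')]
    simpa using hfg
  apply key
  rw [hb, Finset.smul_sum]
  refine Finset.sum_congr rfl fun i _ => ?_
  have h1 : m • ((inv (m • 𝟙 K')) ▷ S i) = 𝟙 _ := by
    have h2 : m • ((inv (m • 𝟙 K')) ▷ S i) = (m • inv (m • 𝟙 K')) ▷ S i :=
      ((tensorRight (S i)).map_zsmul).symm
    have h3 : m • inv (m • 𝟙 K') = 𝟙 K' := by
      have h4 : (m • 𝟙 K') ≫ inv (m • 𝟙 K') = 𝟙 K' := IsIso.hom_inv_id _
      rwa [Preadditive.zsmul_comp, Category.id_comp] at h4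
    rw [h2, h3, id_whiskerRight]
  calc b i ≫ K' ◁ w i ≫ μ[K'] = b i ≫ (m • ((inv (m • 𝟙 K')) ▷ S i)) ≫ K' ◁ w i ≫ μ[K'] := by
        rw [h1, Category.id_comp]
    _ = m • ((b i ≫ (inv (m • 𝟙 K')) ▷ S i) ≫ K' ◁ w i ≫ μ[K']) := by
        simp only [Preadditive.zsmul_comp, Preadditive.comp_zsmul, Category.assoc]

omit [MonObj K] [IsMonHom l] [MonObj K'] in
theorem pr_zsmul [MonObj K] {A S₀ : T} (m : ℤ) (a : A ⟶ K) (x : S₀ ⟶ K) :
    H702.pr (m • a) x = m • H702.pr a x := by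
  rw [H702.pr, H702.pr, tensorHom_def, tensorHom_def]
  have h : (m • a) ▷ S₀ = m • (a ▷ S₀) := (tensorRight S₀).map_zsmul
  rw [h, Preadditive.zsmul_comp, Preadditive.zsmul_comp]

theorem mul_map {A S₀ : T} (b : A ⟶ K ⊗ S₀) (x : S₀ ⟶ K) :
    (b ≫ K ◁ x ≫ μ[K]) ≫ l = (b ≫ l ▷ S₀) ≫ K' ◁ (x ≫ l) ≫ μ[K'] := by
  simp only [Category.assoc, IsMonHom.mul_hom, tensorHom_def, MonoidalCategory.whiskerLeft_comp]
  rw [whisker_exchange_assoc]

/-- regularity on a `p`-localization -/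
theorem reg_loc (hp : p.Prime) (hS : SphAct S) (hl : IsLocPi p l) (hK' : LocO p K') {h : ℕ}
    (hr : Reg v h) (htens : ∀ A : T, IsSph A → ∀ k, IsSph (A ⊗ S k)) :
    Reg (fun i => v i ≫ l) h := by
  intro k hk A hA a ha
  obtain ⟨b, hb⟩ := ha
  obtain ⟨m₁, x, hm₁, hx⟩ := hl.num' hA a
  obtain ⟨m₂, b', hm₂, hb'⟩ := hl.common hp hS (htens A hA k) b k
  -- the relation in `K`, up to the kernel of `l`
  have h1 : (H702.pr (m₂ • x) (v k) - ∑ i ∈ Finset.range k, (m₁ • b' i) ≫ K ◁ v i ≫ μ[K]) ≫ l =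
      0 := by
    rw [Preadditive.sub_comp, ← pr_map, Preadditive.zsmul_comp, ← hx, smul_smul, pr_zsmul, hb,
      Finset.smul_sum, Preadditive.sum_comp, sub_eq_zero]
    refine Finset.sum_congr rfl fun i hi => ?_
    rw [mul_map, Preadditive.zsmul_comp, ← hb' i (Finset.mem_range.1 hi), smul_smul, mul_comm,
      Preadditive.zsmul_comp]
  obtain ⟨m₃, hm₃, h2⟩ := hl.ker' (htens A hA k) _ h1
  have h3 : InI v k (H702.pr (m₃ • m₂ • x) (v k)) := by
    rw [smul_sub, sub_eq_zero] at h2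
    refine ⟨fun i => m₃ • m₁ • b' i, ?_⟩
    rw [pr_zsmul, h2, Finset.smul_sum]
    exact Finset.sum_congr rfl fun i _ => by simp only [Preadditive.zsmul_comp]
  have h4 := hr k hk A hA _ h3
  have h5 := inI_map h4 l
  have h6 : (m₃ • m₂ • x) ≫ l = (m₃ * m₂ * m₁) • a := by
    rw [Preadditive.zsmul_comp, Preadditive.zsmul_comp, ← hx, smul_smul, smul_smul]
  rw [h6] at h5
  exact inI_of_zsmul (hK' _ (not_dvd_mul hp (not_dvd_mul hp hm₃ hm₂) hm₁)) h5

end loc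

section inv

variable {T : Type u} [Category.{v} T] [Preadditive T] [HasZeroObject T]
    [HasShift T ℤ] [∀ n : ℤ, (shiftFunctor T n).Additive] [Pretriangulated T] [IsTriangulated T]
    [MonoidalCategory T] [SymmetricCategory T] [TensorTriangulated T] [MonoidalClosed T]
    [HasCoproducts.{0} T] [HasProducts.{0} T] [StableCat T]
  {D : MUData T} {K : T} [MonObj K] [IsCommMonObj K] {p : ℕ}

theorem vv_lawOf (u : D.R ⟶ K) [IsMonHom u] (i : ℕ) :
    vv p i (lawOf u) = HRing.of (stdEven T) K ((p ^ i : ℤ) - 1) (vK D p u i) := by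
  rw [lawOf, vv_map, D.vel_spec, HRing.map_of]
  rfl

/-- **Invariance**: the elements `v_i` of two monoid maps out of `MU`. -/
theorem vK_sub [Fact p.Prime] (u u' : D.R ⟶ K) [IsMonHom u] [IsMonHom u'] (i : ℕ) :
    InI (vK D p u) i (vK D p u' i - vK D p u i) := by
  rw [inI_iff_mem_span (w := fun i => (p ^ i : ℤ) - 1)]
  have h1 : HRing.of (stdEven T) K ((p ^ i : ℤ) - 1) (vK D p u' i - vK D p u i) =
      vv p i (lawOf u') - vv p i (lawOf u) := by
    rw [vv_lawOf, vv_lawOf]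
    exact map_sub (DirectSum.of ((stdEven T).Gr K) _) _ _
  rw [h1, ← ser_smul u u']
  have h2 := vv_smul_sub_mem p i (lawOf u) (ser u u')
  have h3 : (ser u u').c 0 = 1 := ser_strict u u'
  rw [h3, one_pow, _root_.mul_one, _root_.one_mul] at h2
  have h4 : Ih p i (lawOf u) = Ideal.span (Set.range fun j : Fin i =>
      HRing.of (stdEven T) K ((p ^ (j : ℕ) : ℤ) - 1) (vK D p u j)) := by
    rw [Ih]
    congr 1
    ext x
    constructor
    · rintro ⟨j, hj, rfl⟩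
      exact ⟨⟨j, hj⟩, (vv_lawOf u j).symm⟩
    · rintro ⟨j, rfl⟩
      exact ⟨j, j.2, vv_lawOf u j⟩
  rwa [h4] at h2

theorem reg_change [Fact p.Prime] {u : D.R ⟶ K} (u' : D.R ⟶ K) [IsMonHom u] [IsMonHom u'] {h : ℕ}
    (hr : Reg (vK D p u) h) : Reg (vK D p u') h :=
  reg_congr (fun i _ => vK_sub u u' i) hr

theorem isSph_tensor (p : ℕ) (A : T) (hA : IsSph A) (k : ℕ) : IsSph (A ⊗ Sv T p k) := by
  obtain ⟨n, ⟨e⟩⟩ := hA
  exact ⟨n + 2 * ((p ^ k : ℤ) - 1), ⟨whiskerRightIso e _ ≪≫ whiskerLeftIso _ (H314.sI T _) ≪≫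
    tensorSph _ _ ≪≫ ((shiftFunctorAdd T n (2 * ((p ^ k : ℤ) - 1))).app (𝟙_ T)).symm⟩⟩

/-- **Regularity on the `p`-localization of `MU`.** -/
theorem reg_MUp [hp : Fact p.Prime] (h2 : p ≠ 2) {C : T} {i : 𝟙_ T ⟶ C} {δ : C ⟶ (𝟙_ T)⟦(1 : ℤ)⟧}
    (hC : Triangle.mk ((p : ℤ) • 𝟙 (𝟙_ T)) i δ ∈ distTriang T) {Rp : T} [MonObj Rp]
    [IsCommMonObj Rp] {l : D.R ⟶ Rp} [IsMonHom l] (hl : IsLocPi p l) (hRp : LocO p Rp) (h : ℕ) :
    Reg (vK D p l) h := by
  have h1 := reg_loc hp.out (sphAct (T := T) p) hl hRp (reg_MU D h2 hC h)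
    (fun A hA k => isSph_tensor p A hA k)
  have h3 : (fun i => vK D p (𝟙 D.R) i ≫ l) = vK D p l := by
    funext i
    rw [vK, vK, Category.comp_id]
  rwa [h3] at h1

end inv

end Vale.Agent.P257.H80
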