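import Vale.Agent.P257.H80.BPMonSt
import Vale.Agent.P257.H702.Final
import Vale.Agent.P251.M.BGlueD

/-!
# P257 (helper80): the final statement `HasV` from a Smith-Toda complex of the library
-/

open CategoryTheory MonoidalCategory MonObj Limits Pretriangulated

set_option linter.unusedSectionVars false

noncomputable section

namespace Vale.Agent.P257.H80

open Vale.Agent.P251 Vale.Agent.P251.S Vale.Agent.P251.T Vale.Agent.P251.M Vale.Agent.P251.F
  Vale.Agent.P251.I EvenSpheres Vale.Agent.P257.H702 Vale.Agent.P251.St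

section lib

universe v u

/-- **`MU`**, with all its structure. -/
theorem exists_muAll {T : Type u} [Category.{v} T] [Preadditive T] [HasZeroObject T]
    [HasShift T ℤ] [∀ n : ℤ, (shiftFunctor T n).Additive] [Pretriangulated T] [IsTriangulated T]
    [MonoidalCategory T] [SymmetricCategory T] [TensorTriangulated T] [MonoidalClosed T]
    [HasCoproducts.{0} T] [HasProducts.{0} T] [StableCat T] (F : SpaceFunctor T)
    (e : F.S.obj CCF ≅ (stdEven T).L) :
    ∃ D : MUData T, MUUniv e D ∧ Nonempty (MUFam e D) ∧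
      ∃ o : Vale.Agent.P251.Q.Orientation (thK e D.R), ∀ s, D.ev s = amEv e D.R o s := by
  obtain ⟨M⟩ := nonempty_MUMon F (stdEven T) e
  obtain ⟨b⟩ := M.nonempty_muBasis
  refine ⟨M.data b, M.muUniv b, ⟨⟨M.fam, ?_, ?_, ?_⟩⟩, M.orient, fun s => rfl⟩
  · rw [M.data_law b, M.ori_eq, M.orient_eq]
    rfl
  · intro K _ _ W'
    obtain ⟨u, hu, _, h⟩ := M.exists_univ_of_cls W' (clsOfFam e W') (fun _ _ => rfl)
    exact ⟨u, hu, h⟩
  · intro K _ _ u u' hu hu' h
    exact @univ_unique T _ _ _ _ _ _ _ _ _ _ _ _ _ _ F (stdEven T) e M K _ _ u u' hu hu' h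

end lib

variable {T : SHCat} {S : Susp T} {p : ℕ} [hp : Fact p.Prime]

/-- the ideals of the Hazewinkel generators -/
def CycOut (S : Susp T) (p : ℕ) [Fact p.Prime] (D : MUData T.C) : Prop :=
  ∀ (R : RingSp T) (φ : ∀ n : ℕ, P257.St.VPoly p n →+ SHCat.Hom (S.obj (Cn n)) R.obj)
    (Φ : MvPolynomial ℕ ℤ →+* HRing (stdEven T.C) R.obj) (u : D.R ⟶ R.obj) [IsMonHom u],
    lawOf u = (haz p).map Φ →
    (∀ (n : ℕ) (x : P257.St.VPoly p n),
        Φ x = HRing.of (stdEven T.C) R.obj n ((isoE S n).inv ≫ φ n x)) →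
    ∀ (n : ℕ) (X : T.C) (i : 𝟙_ T.C ⟶ X), CycK (vK D p u) (n + 1) i →
      P257.St.IsSmithToda p n (P257.St.hazV φ) X

/-- **The final statement** from a Smith-Toda complex in the sense of the library. -/
theorem hasV_of {n : ℕ} (h2 : p ≠ 2) (H1 : PTypOut S p) (H2 : PTypIn S p)
    {D : MUData T.C} (H3 : CycOut S p D) (hD : MUUniv (M.lineIso S.toSpaceFunctor) D)
    (U : MUFam (M.lineIso S.toSpaceFunctor) D) {X : T.C} {i : 𝟙_ T.C ⟶ X}
    (hfin : P257.St.FinSp X) (hk : KillsPow p X) (hgen : GenK D p (n + 1) i) :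
    P257.St.HasV S p n := by
  obtain ⟨j, hj⟩ := hk
  refine ⟨exists_isBrownPeterson_of H1 hD U H2, X, finPLocal_of_kills hp.out hfin hj,
    fun B o φ hB => ?_⟩
  obtain ⟨u, hu, ho⟩ := U.exists_mapS o
  obtain ⟨Φ, hΦ, hlaw⟩ := H1 B o φ hB.typ
  have hb := isBPMon_of_isBrownPeterson H1 hD U H2 hB ho
  obtain ⟨C, iC, δ, hC⟩ := distinguished_cocone_triangle ((p : ℤ) • 𝟙 (𝟙_ T.C))
  have h1 : lawOf u = (haz p).map Φ := by rw [← hlaw, U.lawS_eq ho]; rfl
  exact H3 B φ Φ u h1 hΦ n X i (hgen B.obj u (hb.reg hD h2 hC (n + 1)))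

/-- **The final statement** from a Smith-Toda complex `IsST`. -/
theorem hasV_of_isST {n : ℕ} (h2 : p ≠ 2) (H1 : PTypOut S p) (H2 : PTypIn S p)
    {D : MUData T.C} (H3 : CycOut S p D) (hD : MUUniv (M.lineIso S.toSpaceFunctor) D)
    (U : MUFam (M.lineIso S.toSpaceFunctor) D) {C : T.C} {iC : 𝟙_ T.C ⟶ C} {X : T.C}
    {i : 𝟙_ T.C ⟶ X} (H : H314.IsST D p iC (n + 1) i) : P257.St.HasV S p n :=
  hasV_of h2 H1 H2 H3 hD U (finSp_of_finCell H.fin) (killsPow_of_sTow H.tow)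
    (genK_of_sTow H.tow)

end Vale.Agent.P257.H80
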