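import Vale.Agent.P251.F.Honda

/-!
# P257: the functional equation lemma for the Hazewinkel logarithm (infinitely many variables)

Adapted from `P217/Bdl/B3.lean` (existence of the Hazewinkel formal group law in `n` variables):
the variables are now `X 0, X 1, …` (`X i = v_{i+1}`), the functional equation uses the first `n`.
-/

namespace Vale.Agent.P257.H80

open MvPowerSeries Finsupp Vale.Agent.P217 Vale.Agent.P251.F

section HzLog

variable {τ L : Type*} [CommRing L]

/-- The coefficients of `g(A)`. -/
theorem hz_coeff_subst (g : PowerSeries L) {A : MvPowerSeries τ L} (hA : constantCoeff A = 0)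
    (e : τ →₀ ℕ) {M : ℕ} (hM : degree e < M) :
    coeff e (PowerSeries.subst A g : MvPowerSeries τ L) =
      ∑ m ∈ Finset.range M, PowerSeries.coeff m g * coeff e (A ^ m) := by
  have hs : PowerSeries.HasSubst A := PowerSeries.HasSubst.of_constantCoeff_zero hA
  rw [PowerSeries.coeff_subst hs, finsum_eq_sum_of_support_subset (s := Finset.range M)]
  · simp only [smul_eq_mul]
  · intro m hm
    rw [Function.mem_support] at hm
    rw [Finset.coe_range, Set.mem_Iio]
    by_contra hi
    apply hm
    have h1 : coeff e (A ^ m) = 0 := by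
      apply coeff_eq_zero_of_constantCoeff_nilpotent (m := 1) (by rw [hA]; simp)
      omega
    rw [h1, smul_zero]

/-- separating the first terms. -/
theorem hz_coeff_subst' (g : PowerSeries L) (h0 : PowerSeries.constantCoeff g = 0)
    (h1 : PowerSeries.coeff 1 g = 1) {A : MvPowerSeries τ L} (hA : constantCoeff A = 0)
    (e : τ →₀ ℕ) :
    coeff e (PowerSeries.subst A g : MvPowerSeries τ L) =
      coeff e A + ∑ m ∈ Finset.range (degree e),
        PowerSeries.coeff (m + 2) g * coeff e (A ^ (m + 2)) := by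
  rw [hz_coeff_subst g hA e (M := degree e + 2) (by omega), Finset.sum_range_succ',
    Finset.sum_range_succ', zero_add, h1, pow_one, one_mul,
    PowerSeries.coeff_zero_eq_constantCoeff_apply, h0, zero_mul, add_zero, add_comm]

/-- `g` is injective on series without constant term. -/
theorem hz_injective (g : PowerSeries L) (h0 : PowerSeries.constantCoeff g = 0)
    (h1 : PowerSeries.coeff 1 g = 1)
    {A B : MvPowerSeries τ L} (hA : constantCoeff A = 0) (hB : constantCoeff B = 0)
    (h : (PowerSeries.subst A g : MvPowerSeries τ L) = PowerSeries.subst B g) :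
    A = B := by
  have key : ∀ d : ℕ, AgreeLT d A B := by
    intro d
    induction d with
    | zero => intro e he; omega
    | succ d ih =>
      intro e he
      have h3 := congrArg (coeff e) h
      rw [hz_coeff_subst' g h0 h1 hA, hz_coeff_subst' g h0 h1 hB] at h3
      have h2 : ∑ m ∈ Finset.range (degree e),
            PowerSeries.coeff (m + 2) g * coeff e (A ^ (m + 2)) =
          ∑ m ∈ Finset.range (degree e),
            PowerSeries.coeff (m + 2) g * coeff e (B ^ (m + 2)) := by
        refine Finset.sum_congr rfl (fun i _ => ?_)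
        congr 1
        exact ih.pow hA hB (by omega) e he
      rw [h2] at h3
      exact add_right_cancel h3
  ext e
  exact key (degree e + 1) e (Nat.lt_succ_self _)

/-- every series without constant term is of the form `g(A)`. -/
theorem hz_surjective (g : PowerSeries L) (h0 : PowerSeries.constantCoeff g = 0)
    (h1 : PowerSeries.coeff 1 g = 1)
    (R : MvPowerSeries τ L) (hR : constantCoeff R = 0) :
    ∃ A : MvPowerSeries τ L, constantCoeff A = 0 ∧
      (PowerSeries.subst A g : MvPowerSeries τ L) = R := by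
  -- one step of the iteration
  let step : MvPowerSeries τ L → MvPowerSeries τ L := fun G e =>
    coeff e R - ∑ m ∈ Finset.range (degree e),
      PowerSeries.coeff (m + 2) g * coeff e (G ^ (m + 2))
  have hstep : ∀ G e, coeff e (step G) =
      coeff e R - ∑ m ∈ Finset.range (degree e),
        PowerSeries.coeff (m + 2) g * coeff e (G ^ (m + 2)) :=
    fun _ _ => rfl
  have hstep0 : ∀ G, constantCoeff (step G) = 0 := by
    intro G
    rw [← coeff_zero_eq_constantCoeff_apply, hstep]
    simp [hR]
  let G : ℕ → MvPowerSeries τ L := fun k => step^[k] 0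
  have hG0 : ∀ k, constantCoeff (G k) = 0 := by
    intro k
    cases k with
    | zero => simp [G]
    | succ k =>
      simp only [G, Function.iterate_succ_apply']
      exact hstep0 _
  have hGs : ∀ k, G (k + 1) = step (G k) := by
    intro k
    simp only [G, Function.iterate_succ_apply']
  have hstepA : ∀ (d : ℕ) (A B : MvPowerSeries τ L), constantCoeff A = 0 → constantCoeff B = 0 →
      AgreeLT d A B → AgreeLT (d + 1) (step A) (step B) := by
    intro d A B hA hB h e he
    rw [hstep, hstep]
    refine congrArg₂ (· - ·) rfl (Finset.sum_congr rfl (fun i _ => ?_))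
    exact congrArg₂ (· * ·) rfl (h.pow hA hB (by omega) e he)
  have hcons : ∀ k, AgreeLT k (G k) (G (k + 1)) := by
    intro k
    induction k with
    | zero => intro e he; omega
    | succ k ih =>
      rw [hGs k, hGs (k + 1)]
      exact hstepA k _ _ (hG0 _) (hG0 _) ih
  have hcons2 : ∀ k j, AgreeLT k (G k) (G (k + j)) := by
    intro k j
    induction j with
    | zero => intro e _; rfl
    | succ j ih =>
      intro e he
      rw [ih e he]
      exact hcons (k + j) e (by omega)
  let A : MvPowerSeries τ L := fun e => coeff e (G (degree e + 1))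
  have hA : ∀ e, coeff e A = coeff e (G (degree e + 1)) := fun _ => rfl
  have hAG : ∀ k, AgreeLT k A (G k) := by
    intro k e he
    rw [hA]
    obtain ⟨j, rfl⟩ := Nat.exists_eq_add_of_le (Nat.succ_le_of_lt he)
    exact hcons2 (degree e + 1) j e (by omega)
  have hA0 : constantCoeff A = 0 := by
    rw [← coeff_zero_eq_constantCoeff_apply, hA, coeff_zero_eq_constantCoeff_apply, hG0]
  refine ⟨A, hA0, ?_⟩
  ext e
  rw [hz_coeff_subst' g h0 h1 hA0, hA, hGs, hstep]
  have h2 : ∑ m ∈ Finset.range (degree e), PowerSeries.coeff (m + 2) g * coeff e (A ^ (m + 2)) =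
      ∑ m ∈ Finset.range (degree e),
        PowerSeries.coeff (m + 2) g * coeff e (G (degree e) ^ (m + 2)) := by
    refine Finset.sum_congr rfl (fun i _ => ?_)
    exact congrArg₂ (· * ·) rfl ((hAG (degree e)).pow hA0 (hG0 _) (by omega) e
      (Nat.lt_succ_self _))
  rw [h2, sub_add_cancel]

/-- substituting agreeing series. -/
theorem hz_agree_subst (g : PowerSeries L) {d : ℕ} {A B : MvPowerSeries τ L}
    (h : AgreeLT d A B) (hA : constantCoeff A = 0) (hB : constantCoeff B = 0) :
    AgreeLT d (PowerSeries.subst A g : MvPowerSeries τ L) (PowerSeries.subst B g) := by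
  intro e he
  rw [hz_coeff_subst g hA e (Nat.lt_succ_self _), hz_coeff_subst g hB e (Nat.lt_succ_self _)]
  refine Finset.sum_congr rfl (fun i _ => ?_)
  rw [h.pow' _ e he]

theorem hz_expand_subst {q : ℕ} (hq0 : q ≠ 0) {A : MvPowerSeries τ L}
    (hA : constantCoeff A = 0) (f : PowerSeries L) :
    MvPowerSeries.expand q hq0 (PowerSeries.subst A f : MvPowerSeries τ L) =
      PowerSeries.subst (MvPowerSeries.expand q hq0 A) f := by
  rw [PowerSeries.subst_def, PowerSeries.subst_def]
  have hs : PowerSeries.HasSubst A := PowerSeries.HasSubst.of_constantCoeff_zero hA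
  exact expand_subst q hq0 hs.const

/-- summing over the multiples of `q`. -/
theorem hz_sum_mult {q : ℕ} (hq : 0 < q) (M : ℕ) (g a : ℕ → L) (h0 : ∀ m, M ≤ m → g m = 0) :
    ∑ m ∈ Finset.range M, (if q ∣ m then a (m / q) * g m else 0) =
      ∑ k ∈ Finset.range M, a k * g (q * k) := by
  rw [← Finset.sum_filter]
  have h1 : ∑ k ∈ (Finset.range M).filter (fun k => q * k < M), a k * g (q * k) =
      ∑ k ∈ Finset.range M, a k * g (q * k) := by
    apply Finset.sum_filter_of_ne
    intro k _ hne
    by_contra hlt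
    exact hne (by rw [h0 _ (not_lt.1 hlt), mul_zero])
  rw [← h1]
  refine Finset.sum_nbij' (fun m => m / q) (fun k => q * k) ?_ ?_ ?_ ?_ ?_
  · intro m hm
    rw [Finset.mem_filter, Finset.mem_range] at hm
    rw [Finset.mem_filter, Finset.mem_range, Nat.mul_div_cancel' hm.2]
    exact ⟨lt_of_le_of_lt (Nat.div_le_self _ _) hm.1, hm.1⟩
  · intro k hk
    rw [Finset.mem_filter, Finset.mem_range] at hk
    rw [Finset.mem_filter, Finset.mem_range]
    exact ⟨hk.2, Dvd.intro _ rfl⟩
  · intro m hm
    rw [Finset.mem_filter] at hm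
    exact Nat.mul_div_cancel' hm.2
  · intro k _
    exact Nat.mul_div_cancel_left _ hq
  · intro m hm
    rw [Finset.mem_filter] at hm
    show a (m / q) * g m = a (m / q) * g (q * (m / q))
    rw [Nat.mul_div_cancel' hm.2]

end HzLog

section HzPoly

variable {p n : ℕ} [Fact p.Prime]

/-- `v_j ↦ v_j^q` as a ring homomorphism. -/
noncomputable abbrev hzS (q : ℕ) (T : Type) [CommRing T] :
    MvPolynomial ℕ T →+* MvPolynomial ℕ T :=
  (MvPolynomial.expand q : MvPolynomial ℕ T →ₐ[T] MvPolynomial ℕ T).toRingHom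

theorem hzS_apply (q : ℕ) (T : Type) [CommRing T] (x : MvPolynomial ℕ T) :
    hzS q T x = MvPolynomial.expand q x := rfl

/-- `ℤ[v] → ℚ[v]`. -/
noncomputable abbrev hzI : MvPolynomial ℕ ℤ →+* MvPolynomial ℕ ℚ :=
  MvPolynomial.map (Int.castRingHom ℚ)

theorem hzI_injective : Function.Injective (hzI) :=
  MvPolynomial.map_injective _ Int.cast_injective

theorem hzS_hzI (q : ℕ) (x : MvPolynomial ℕ ℤ) :
    hzS q ℚ (hzI x) = hzI (hzS q ℤ x) := by
  rw [hzS_apply, hzS_apply]
  exact (MvPolynomial.map_expand _ _ _).symm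

/-- the coefficients of the Hazewinkel logarithm. -/
noncomputable def hzCoeff (p n : ℕ) [Fact p.Prime] (m : ℕ) : MvPolynomial ℕ ℚ :=
  if h : m = 0 then 0 else (if m = 1 then 1 else 0) +
    ∑ i ∈ Finset.range n, if p ^ (i + 1) ∣ m then
      MvPolynomial.C (1 / (p : ℚ)) * MvPolynomial.X i *
        MvPolynomial.expand (p ^ (i + 1)) (hzCoeff p n (m / p ^ (i + 1)))
      else 0
termination_by m
decreasing_by
  apply Nat.div_lt_self (Nat.pos_of_ne_zero h)
  exact Nat.one_lt_pow (Nat.succ_ne_zero _) (Fact.out : p.Prime).one_lt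

theorem hzCoeff_zero : hzCoeff p n 0 = 0 := by
  rw [hzCoeff, dif_pos rfl]

theorem hzCoeff_eq (m : ℕ) : hzCoeff p n m = (if m = 1 then 1 else 0) +
    ∑ i ∈ Finset.range n, if p ^ (i + 1) ∣ m then
      MvPolynomial.C (1 / (p : ℚ)) * MvPolynomial.X i *
        MvPolynomial.expand (p ^ (i + 1)) (hzCoeff p n (m / p ^ (i + 1)))
      else 0 := by
  by_cases h : m = 0
  · subst h
    rw [hzCoeff_zero]
    simp [hzCoeff_zero]
  · conv_lhs => rw [hzCoeff, dif_neg h]

/-- the functional equation for the coefficients. -/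
def HzEq (p n : ℕ) (f : PowerSeries (MvPolynomial ℕ ℚ)) : Prop :=
  ∀ m : ℕ, PowerSeries.coeff m f = (if m = 1 then 1 else 0) +
    ∑ i ∈ Finset.range n, if p ^ (i + 1) ∣ m then
      MvPolynomial.C (1 / (p : ℚ)) * MvPolynomial.X i *
        MvPolynomial.expand (p ^ (i + 1)) (PowerSeries.coeff (m / p ^ (i + 1)) f)
      else 0

theorem HzEq.coeff_one {f : PowerSeries (MvPolynomial ℕ ℚ)} (hf : HzEq p n f) :
    PowerSeries.coeff 1 f = 1 := by
  rw [hf 1, if_pos rfl, Finset.sum_eq_zero, add_zero]
  intro i _
  rw [if_neg]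
  intro h
  have h1 := Nat.dvd_one.1 h
  have h2 := Nat.one_lt_pow (Nat.succ_ne_zero i) (Fact.out : p.Prime).one_lt
  rw [Nat.succ_eq_add_one, h1] at h2
  exact lt_irrefl _ h2

/-- denominators. -/
theorem HzEq.denom {f : PowerSeries (MvPolynomial ℕ ℚ)}
    (h0 : PowerSeries.constantCoeff f = 0) (hf : HzEq p n f) (m : ℕ) :
    ∃ k : ℕ, p ^ k ∣ m ∧ ∃ z : MvPolynomial ℕ ℤ,
      (p : MvPolynomial ℕ ℚ) ^ k * PowerSeries.coeff m f = hzI z := by
  have hp := (Fact.out : p.Prime)
  have hpQ : (p : ℚ) ≠ 0 := by exact_mod_cast hp.ne_zero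
  induction m using Nat.strong_induction_on with
  | _ m ih =>
    rcases Nat.eq_zero_or_pos m with rfl | hm
    · refine ⟨0, by simp, 0, ?_⟩
      rw [PowerSeries.coeff_zero_eq_constantCoeff_apply, h0, mul_zero, map_zero]
    · refine ⟨m.factorization p, Nat.ordProj_dvd m p, ?_⟩
      have hterm : ∀ i : ℕ, ∃ z : MvPolynomial ℕ ℤ,
          (p : MvPolynomial ℕ ℚ) ^ (m.factorization p) *
            (if p ^ (i + 1) ∣ m then
              MvPolynomial.C (1 / (p : ℚ)) * MvPolynomial.X i *
                MvPolynomial.expand (p ^ (i + 1))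
                  (PowerSeries.coeff (m / p ^ (i + 1)) f)
              else 0) = hzI z := by
        intro i
        split_ifs with hd
        · have hlt : m / p ^ (i + 1) < m :=
            Nat.div_lt_self hm (Nat.one_lt_pow (Nat.succ_ne_zero _) hp.one_lt)
          obtain ⟨k, hk, z, hz⟩ := ih _ hlt
          have hk2 : p ^ (k + 1) ∣ m := by
            have h2 : p ^ (i + 1) * p ^ k ∣ m := by
              obtain ⟨c, hc⟩ := hd
              have h3 : m / p ^ (i + 1) = c := by
                rw [hc, Nat.mul_div_cancel_left _ (pow_pos hp.pos _)]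
              rw [h3] at hk
              rw [hc]
              exact Nat.mul_dvd_mul_left _ hk
            refine dvd_trans ?_ h2
            rw [← pow_add]
            exact pow_dvd_pow _ (by omega)
          have hk3 : k + 1 ≤ m.factorization p :=
            (hp.pow_dvd_iff_le_factorization hm.ne').1 hk2
          refine ⟨(p : MvPolynomial ℕ ℤ) ^ (m.factorization p - (k + 1)) *
            (MvPolynomial.X i * MvPolynomial.expand (p ^ (i + 1)) z), ?_⟩
          have h4 : (p : MvPolynomial ℕ ℚ) ^ (m.factorization p) =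
              (p : MvPolynomial ℕ ℚ) ^ (m.factorization p - (k + 1)) *
                ((p : MvPolynomial ℕ ℚ) * (p : MvPolynomial ℕ ℚ) ^ k) := by
            rw [← pow_succ', ← pow_add, Nat.sub_add_cancel hk3]
          have h5 : hzI (MvPolynomial.expand (p ^ (i + 1)) z) =
              (p : MvPolynomial ℕ ℚ) ^ k * MvPolynomial.expand (p ^ (i + 1))
                  (PowerSeries.coeff (m / p ^ (i + 1)) f) := by
            rw [show hzI (MvPolynomial.expand (p ^ (i + 1)) z) =
              MvPolynomial.expand (p ^ (i + 1)) (hzI z) from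
                MvPolynomial.map_expand _ _ _, ← hz, map_mul, map_pow, map_natCast]
          have h6 : (p : MvPolynomial ℕ ℚ) * MvPolynomial.C (1 / (p : ℚ)) = 1 := by
            rw [show (p : MvPolynomial ℕ ℚ) = MvPolynomial.C (p : ℚ) from
              (map_natCast _ _).symm, ← map_mul, mul_one_div_cancel hpQ, map_one]
          rw [map_mul, map_mul, map_pow, map_natCast, h5, MvPolynomial.map_X, h4]
          linear_combination ((p : MvPolynomial ℕ ℚ) ^ (m.factorization p - (k + 1)) *
            (p : MvPolynomial ℕ ℚ) ^ k * MvPolynomial.X i *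
              MvPolynomial.expand (p ^ (i + 1))
                  (PowerSeries.coeff (m / p ^ (i + 1)) f)) * h6
        · exact ⟨0, by rw [mul_zero, map_zero]⟩
      choose z hz using hterm
      refine ⟨(p : MvPolynomial ℕ ℤ) ^ (m.factorization p) *
        (if m = 1 then 1 else 0) + ∑ i ∈ Finset.range n, z i, ?_⟩
      rw [hf m, mul_add, Finset.mul_sum, map_add, map_sum, map_mul, map_pow, map_natCast]
      refine congrArg₂ (· + ·) (congrArg₂ (· * ·) rfl ?_)
        (Finset.sum_congr rfl (fun i _ => hz i))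
      split_ifs <;> simp

/-- **functional equation** `f(A) = A + ∑ (v_i/p) f^{(q_i)}(A^(q_i))`. -/
theorem HzEq.subst_eq {τ : Type*} {f : PowerSeries (MvPolynomial ℕ ℚ)}
    (hf : HzEq p n f) {A : MvPowerSeries τ (MvPolynomial ℕ ℚ)}
    (hA : constantCoeff A = 0) (e : τ →₀ ℕ) :
    coeff e (PowerSeries.subst A f : MvPowerSeries τ (MvPolynomial ℕ ℚ)) =
      coeff e A + ∑ i ∈ Finset.range n, MvPolynomial.C (1 / (p : ℚ)) * MvPolynomial.X i *
        coeff e (PowerSeries.subst (A ^ (p ^ (i + 1)))
          (f.map (hzS (p ^ (i + 1)) ℚ)) :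
            MvPowerSeries τ (MvPolynomial ℕ ℚ)) := by
  have hp := (Fact.out : p.Prime)
  have h0 : ∀ m, degree e + 2 ≤ m → coeff e (A ^ m) = 0 := by
    intro m hm
    apply coeff_eq_zero_of_constantCoeff_nilpotent (m := 1) (by rw [hA]; simp)
    omega
  rw [hz_coeff_subst f hA e (M := degree e + 2) (by omega)]
  have h1 : ∀ i : ℕ, coeff e (PowerSeries.subst (A ^ (p ^ (i + 1)))
          (f.map (hzS (p ^ (i + 1)) ℚ)) : MvPowerSeries τ (MvPolynomial ℕ ℚ)) =
      ∑ m ∈ Finset.range (degree e + 2), if p ^ (i + 1) ∣ m then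
        MvPolynomial.expand (p ^ (i + 1))
          (PowerSeries.coeff (m / p ^ (i + 1)) f) * coeff e (A ^ m) else 0 := by
    intro i
    have hAq : constantCoeff (A ^ (p ^ (i + 1))) = 0 := by
      rw [map_pow, hA, zero_pow (pow_ne_zero _ hp.ne_zero)]
    rw [hz_coeff_subst _ hAq e (M := degree e + 2) (by omega),
      hz_sum_mult (q := p ^ (i + 1)) (pow_pos hp.pos _) (degree e + 2)
        (fun m => coeff e (A ^ m))
        (fun m => MvPolynomial.expand (p ^ (i + 1)) (PowerSeries.coeff m f)) h0]
    refine Finset.sum_congr rfl (fun m _ => ?_)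
    rw [PowerSeries.coeff_map, hzS_apply, ← pow_mul]
  simp only [h1]
  have h2 : ∀ m ∈ Finset.range (degree e + 2), PowerSeries.coeff m f * coeff e (A ^ m) =
      (if m = 1 then coeff e (A ^ m) else 0) + ∑ i ∈ Finset.range n,
        MvPolynomial.C (1 / (p : ℚ)) * MvPolynomial.X i *
        (if p ^ (i + 1) ∣ m then
        MvPolynomial.expand (p ^ (i + 1))
          (PowerSeries.coeff (m / p ^ (i + 1)) f) * coeff e (A ^ m) else 0) := by
    intro m _
    rw [hf m, add_mul, Finset.sum_mul]
    refine congrArg₂ (· + ·) ?_ ?_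
    · split_ifs
      · rw [one_mul]
      · rw [zero_mul]
    · refine Finset.sum_congr rfl (fun i _ => ?_)
      split_ifs
      · ring
      · rw [zero_mul, mul_zero]
  rw [Finset.sum_congr rfl h2, Finset.sum_add_distrib, Finset.sum_ite_eq',
    if_pos (Finset.mem_range.2 (by omega)), pow_one, Finset.sum_comm]
  refine congrArg₂ (· + ·) rfl (Finset.sum_congr rfl (fun i _ => ?_))
  rw [Finset.mul_sum]

/-- in `(ℤ/p)[v]` the `p^k`-th power is `v_j ↦ v_j^(p^k)`. -/
theorem hz_iterateFrobenius (k : ℕ) (x : MvPolynomial ℕ (ZMod p)) :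
    iterateFrobenius (MvPolynomial ℕ (ZMod p)) p k x = MvPolynomial.expand (p ^ k) x := by
  induction k with
  | zero => simp
  | succ k ih =>
    rw [iterateFrobenius_def] at ih ⊢
    rw [pow_succ, pow_mul, ih, ← MvPolynomial.expand_zmod, mul_comm, MvPolynomial.expand_mul]

/-- `(σA)(X^q) ≡ A^q mod p`. -/
theorem hz_dvd_expand {τ : Type*} (k : ℕ) (hq0 : p ^ k ≠ 0)
    (A : MvPowerSeries τ (MvPolynomial ℕ ℤ)) (e : τ →₀ ℕ) :
    (p : MvPolynomial ℕ ℤ) ∣
      coeff e (MvPowerSeries.expand (p ^ k) hq0 (A.map (hzS (p ^ k) ℤ))) -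
        coeff e (A ^ (p ^ k)) := by
  have h1 : (MvPowerSeries.expand (p ^ k) hq0 (A.map (hzS (p ^ k) ℤ))).map
      (MvPolynomial.map (Int.castRingHom (ZMod p))) =
      (A ^ (p ^ k)).map (MvPolynomial.map (Int.castRingHom (ZMod p))) := by
    have hp : p ≠ 0 := (Fact.out : p.Prime).ne_zero
    have h0 := map_iterateFrobenius_expand p hp
      (A.map (MvPolynomial.map (Int.castRingHom (ZMod p)))) k
    rw [map_pow, ← h0, map_expand, map_expand]
    congr 1
    ext1 f
    rw [coeff_map, coeff_map, coeff_map, coeff_map, hz_iterateFrobenius, hzS_apply,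
      MvPolynomial.map_expand]
  have h2 := congrArg (coeff e) h1
  rw [coeff_map, coeff_map, ← sub_eq_zero, ← map_sub] at h2
  have h3 := (MvPolynomial.C_dvd_iff_zmod p _).2 h2
  have h4 : (MvPolynomial.C ((p : ℕ) : ℤ) : MvPolynomial ℕ ℤ) = (p : MvPolynomial ℕ ℤ) := by
    simp
  rw [h4] at h3
  exact h3

omit [Fact p.Prime] in
/-- If `A ≡ B mod p` and `g` has small denominators then `g(A) ≡ g(B) mod p`. -/
theorem hz_congr {τ : Type*} (g : PowerSeries (MvPolynomial ℕ ℚ))
    (hg : ∀ m, ∃ k : ℕ, p ^ k ∣ m ∧ ∃ z : MvPolynomial ℕ ℤ,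
      (p : MvPolynomial ℕ ℚ) ^ k * PowerSeries.coeff m g = hzI z)
    {A B : MvPowerSeries τ (MvPolynomial ℕ ℤ)}
    (hA : constantCoeff A = 0) (hB : constantCoeff B = 0)
    (h : ∀ e, (p : MvPolynomial ℕ ℤ) ∣ coeff e A - coeff e B) (e : τ →₀ ℕ) :
    ∃ w : MvPolynomial ℕ ℤ,
      coeff e (PowerSeries.subst (A.map (hzI)) g : MvPowerSeries τ (MvPolynomial ℕ ℚ)) -
        coeff e (PowerSeries.subst (B.map (hzI)) g :
          MvPowerSeries τ (MvPolynomial ℕ ℚ)) = (p : MvPolynomial ℕ ℚ) * hzI w := by
  have hA' : constantCoeff (A.map (hzI)) = 0 := by rw [constantCoeff_map, hA, map_zero]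
  have hB' : constantCoeff (B.map (hzI)) = 0 := by rw [constantCoeff_map, hB, map_zero]
  have h1 : (p : MvPowerSeries τ (MvPolynomial ℕ ℤ)) ∣ A - B := by
    choose c hc using h
    refine ⟨fun e => c e, ?_⟩
    ext1 e
    have := coeff_natCast_pow_mul (τ := τ) p 1
      (fun e => c e : MvPowerSeries τ (MvPolynomial ℕ ℤ)) e
    rw [pow_one, pow_one] at this
    rw [this, map_sub, hc e]
    rfl
  have hterm : ∀ m : ℕ, ∃ w : MvPolynomial ℕ ℤ,
      PowerSeries.coeff m g * coeff e ((A.map (hzI)) ^ m) -
        PowerSeries.coeff m g * coeff e ((B.map (hzI)) ^ m) =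
        (p : MvPolynomial ℕ ℚ) * hzI w := by
    intro m
    obtain ⟨k, ⟨c, hc⟩, z, hz⟩ := hg m
    have h2 : (p : MvPowerSeries τ (MvPolynomial ℕ ℤ)) ^ (k + 1) ∣ A ^ m - B ^ m := by
      rw [hc, pow_mul, pow_mul]
      exact (dvd_sub_pow_of_dvd_sub h1 k).trans (sub_dvd_pow_sub_pow _ _ _)
    obtain ⟨D, hD⟩ := h2
    refine ⟨z * coeff e D, ?_⟩
    have h3 : coeff e ((A.map (hzI)) ^ m) - coeff e ((B.map (hzI)) ^ m) =
        hzI (coeff e (A ^ m - B ^ m)) := by
      rw [map_sub (coeff e), map_sub (hzI), ← map_pow, ← map_pow, coeff_map, coeff_map]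
    rw [← mul_sub, h3, hD, coeff_natCast_pow_mul, map_mul, map_pow, map_natCast, map_mul, ← hz]
    ring
  choose w hw using hterm
  refine ⟨∑ m ∈ Finset.range (degree e + 1), w m, ?_⟩
  rw [hz_coeff_subst g hA' e (Nat.lt_succ_self _), hz_coeff_subst g hB' e (Nat.lt_succ_self _),
    ← Finset.sum_sub_distrib, map_sum, Finset.mul_sum]
  exact Finset.sum_congr rfl (fun m _ => hw m)

/-- integrality. -/
theorem hz_integral {f : PowerSeries (MvPolynomial ℕ ℚ)}
    (h0 : PowerSeries.constantCoeff f = 0) (hf : HzEq p n f)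
    {F : MvPowerSeries (Fin 2) (MvPolynomial ℕ ℚ)} (hF0 : constantCoeff F = 0)
    (hF : (PowerSeries.subst F f : MvPowerSeries (Fin 2) (MvPolynomial ℕ ℚ)) =
      PowerSeries.subst (X 0 : MvPowerSeries (Fin 2) (MvPolynomial ℕ ℚ)) f +
        PowerSeries.subst (X 1 : MvPowerSeries (Fin 2) (MvPolynomial ℕ ℚ)) f) :
    ∀ e, ∃ z : MvPolynomial ℕ ℤ, coeff e F = hzI z := by
  classical
  have hp := (Fact.out : p.Prime)
  have hpQ : (p : ℚ) ≠ 0 := by exact_mod_cast hp.ne_zero
  have key : ∀ d : ℕ, ∀ e : Fin 2 →₀ ℕ, degree e < d →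
      ∃ z : MvPolynomial ℕ ℤ, coeff e F = hzI z := by
    intro d
    induction d with
    | zero => intro e he; omega
    | succ d ih =>
      intro e he
      -- the truncated lift
      choose z hz using ih
      let Ft : MvPowerSeries (Fin 2) (MvPolynomial ℕ ℤ) :=
        fun f => if h : degree f < d then z f h else 0
      have hFt : ∀ f, coeff f Ft = if h : degree f < d then z f h else 0 := fun _ => rfl
      have hFt0 : constantCoeff Ft = 0 := by
        rw [← coeff_zero_eq_constantCoeff_apply, hFt]
        split_ifs with h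
        · apply hzI_injective
          rw [← hz, coeff_zero_eq_constantCoeff_apply, hF0, map_zero]
        · rfl
      have hagree : AgreeLT d (Ft.map (hzI)) F := by
        intro f hf
        rw [coeff_map, hFt, dif_pos hf, hz f hf]
      have hFtQ0 : constantCoeff (Ft.map (hzI)) = 0 := by
        rw [constantCoeff_map, hFt0, map_zero]
      have hterm : ∀ i : ℕ, ∃ w : MvPolynomial ℕ ℤ,
          coeff e (PowerSeries.subst (X 0 ^ (p ^ (i + 1)))
            (f.map (hzS (p ^ (i + 1)) ℚ)) :
              MvPowerSeries (Fin 2) (MvPolynomial ℕ ℚ)) +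
          coeff e (PowerSeries.subst (X 1 ^ (p ^ (i + 1)))
            (f.map (hzS (p ^ (i + 1)) ℚ)) :
              MvPowerSeries (Fin 2) (MvPolynomial ℕ ℚ)) -
          coeff e (PowerSeries.subst (F ^ (p ^ (i + 1)))
            (f.map (hzS (p ^ (i + 1)) ℚ)) :
              MvPowerSeries (Fin 2) (MvPolynomial ℕ ℚ)) =
          (p : MvPolynomial ℕ ℚ) * hzI w := by
        intro i
        set q := p ^ (i + 1) with hqdef
        have hq : 2 ≤ q := Nat.one_lt_pow (Nat.succ_ne_zero _) hp.one_lt
        have hq0 : q ≠ 0 := by omega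
        set σ := hzS q ℚ with hσ
        -- the twisted logarithm
        have hden : ∀ m, ∃ k : ℕ, p ^ k ∣ m ∧ ∃ z : MvPolynomial ℕ ℤ,
            (p : MvPolynomial ℕ ℚ) ^ k * PowerSeries.coeff m (f.map σ) = hzI z := by
          intro m
          obtain ⟨k, hk, z, hz⟩ := hf.denom h0 m
          refine ⟨k, hk, hzS q ℤ z, ?_⟩
          rw [PowerSeries.coeff_map, ← hzS_hzI, ← hz, map_mul, map_pow, map_natCast]
        have hFσ0 : constantCoeff (F.map σ) = 0 := by rw [constantCoeff_map, hF0, map_zero]
        have h4 : (PowerSeries.subst (MvPowerSeries.expand q hq0 (F.map σ)) (f.map σ) :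
            MvPowerSeries (Fin 2) (MvPolynomial ℕ ℚ)) =
            PowerSeries.subst (X 0 ^ q) (f.map σ) + PowerSeries.subst (X 1 ^ q) (f.map σ) := by
          have h5 := congrArg (fun G => MvPowerSeries.expand q hq0 (MvPowerSeries.map σ G)) hF
          simp only [map_add] at h5
          rw [PowerSeries.map_subst (PowerSeries.HasSubst.of_constantCoeff_zero hF0),
            PowerSeries.map_subst (PowerSeries.HasSubst.of_constantCoeff_zero
              (constantCoeff_X 0)),
            PowerSeries.map_subst (PowerSeries.HasSubst.of_constantCoeff_zero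
              (constantCoeff_X 1)), map_X, map_X, hz_expand_subst hq0 hFσ0,
            hz_expand_subst hq0 (constantCoeff_X 0), hz_expand_subst hq0 (constantCoeff_X 1),
            expand_X, expand_X] at h5
          exact h5
        -- the integral series
        set A : MvPowerSeries (Fin 2) (MvPolynomial ℕ ℤ) :=
          MvPowerSeries.expand q hq0 (Ft.map (hzS q ℤ)) with hAdef
        set B : MvPowerSeries (Fin 2) (MvPolynomial ℕ ℤ) := Ft ^ q with hBdef
        have hA0 : constantCoeff A = 0 := by
          rw [hAdef, constantCoeff_expand, constantCoeff_map, hFt0, map_zero]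
        have hB0 : constantCoeff B = 0 := by rw [hBdef, map_pow, hFt0, zero_pow hq0]
        have hAQ : A.map (hzI) = MvPowerSeries.expand q hq0 ((Ft.map (hzI)).map σ) := by
          rw [hAdef, map_expand]
          congr 1
          ext1 g
          rw [coeff_map, coeff_map, coeff_map, coeff_map, hσ, hzS_hzI]
        have hBQ : B.map (hzI) = (Ft.map (hzI)) ^ q := by rw [hBdef, map_pow]
        have hA0' : constantCoeff (A.map (hzI)) = 0 := by
          rw [constantCoeff_map, hA0, map_zero]
        have hB0' : constantCoeff (B.map (hzI)) = 0 := by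
          rw [constantCoeff_map, hB0, map_zero]
        have hFe0 : constantCoeff (MvPowerSeries.expand q hq0 (F.map σ)) = 0 := by
          rw [constantCoeff_expand, hFσ0]
        have hFq0 : constantCoeff (F ^ q) = 0 := by rw [map_pow, hF0, zero_pow hq0]
        have hagreeσ : AgreeLT d ((Ft.map (hzI)).map σ) (F.map σ) := by
          intro g hg
          exact (coeff_map _ _ _).trans
            ((congrArg σ (hagree g hg)).trans (coeff_map _ _ _).symm)
        have h1 : coeff e (PowerSeries.subst (MvPowerSeries.expand q hq0 (F.map σ)) (f.map σ) :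
            MvPowerSeries (Fin 2) (MvPolynomial ℕ ℚ)) =
            coeff e (PowerSeries.subst (A.map (hzI)) (f.map σ) :
              MvPowerSeries (Fin 2) (MvPolynomial ℕ ℚ)) := by
          refine (hz_agree_subst (f.map σ) (d := d + 1) ?_ hFe0 hA0') e he
          rw [hAQ]
          intro g hg
          refine (hagreeσ.expand hq ?_ hFσ0 g hg).symm
          rw [constantCoeff_map, hFtQ0, map_zero]
        have h2 : coeff e (PowerSeries.subst (F ^ q) (f.map σ) :
            MvPowerSeries (Fin 2) (MvPolynomial ℕ ℚ)) =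
            coeff e (PowerSeries.subst (B.map (hzI)) (f.map σ) :
              MvPowerSeries (Fin 2) (MvPolynomial ℕ ℚ)) := by
          refine (hz_agree_subst (f.map σ) (d := d + 1) ?_ hFq0 hB0') e he
          rw [hBQ]
          intro g hg
          exact (hagree.pow hFtQ0 hF0 hq g hg).symm
        rw [← map_add, ← h4, h1, h2]
        exact hz_congr (f.map σ) hden hA0 hB0
          (fun g => hz_dvd_expand (i + 1) hq0 Ft g) e
      choose w hw using hterm
      have h3 := congrArg (coeff e) hF
      rw [map_add, hf.subst_eq hF0, hf.subst_eq (constantCoeff_X 0),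
        hf.subst_eq (constantCoeff_X 1)] at h3
      have h6 : (p : MvPolynomial ℕ ℚ) * MvPolynomial.C (1 / (p : ℚ)) = 1 := by
        rw [show (p : MvPolynomial ℕ ℚ) = MvPolynomial.C (p : ℚ) from
          (map_natCast _ _).symm, ← map_mul, mul_one_div_cancel hpQ, map_one]
      have h7 : coeff e F = coeff e (X 0) + coeff e (X 1) +
          ∑ i ∈ Finset.range n, MvPolynomial.X i * hzI (w i) := by
        have h8 : ∑ i ∈ Finset.range n, MvPolynomial.X i * hzI (w i) =
            ∑ i ∈ Finset.range n, MvPolynomial.C (1 / (p : ℚ)) * MvPolynomial.X i *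
              coeff e (PowerSeries.subst (X 0 ^ (p ^ (i + 1)))
                (f.map (hzS (p ^ (i + 1)) ℚ)) :
                  MvPowerSeries (Fin 2) (MvPolynomial ℕ ℚ)) +
            ∑ i ∈ Finset.range n, MvPolynomial.C (1 / (p : ℚ)) * MvPolynomial.X i *
              coeff e (PowerSeries.subst (X 1 ^ (p ^ (i + 1)))
                (f.map (hzS (p ^ (i + 1)) ℚ)) :
                  MvPowerSeries (Fin 2) (MvPolynomial ℕ ℚ)) -
            ∑ i ∈ Finset.range n, MvPolynomial.C (1 / (p : ℚ)) * MvPolynomial.X i *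
              coeff e (PowerSeries.subst (F ^ (p ^ (i + 1)))
                (f.map (hzS (p ^ (i + 1)) ℚ)) :
                  MvPowerSeries (Fin 2) (MvPolynomial ℕ ℚ)) := by
          rw [← Finset.sum_add_distrib, ← Finset.sum_sub_distrib]
          refine Finset.sum_congr rfl (fun i _ => ?_)
          rw [← mul_add, ← mul_sub, hw i]
          linear_combination (-(MvPolynomial.X i * hzI (w i))) * h6
        rw [h8]
        linear_combination h3
      refine ⟨coeff e (X 0) + coeff e (X 1) + ∑ i ∈ Finset.range n, MvPolynomial.X i * w i, ?_⟩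
      rw [h7, map_add, map_add, map_sum, ← coeff_map, ← coeff_map, map_X, map_X]
      congr 1
      refine Finset.sum_congr rfl (fun i _ => ?_)
      rw [map_mul, MvPolynomial.map_X]
  intro e
  exact key (degree e + 1) e (Nat.lt_succ_self _)

omit [Fact p.Prime] in
/-- additivity of the logarithm for general arguments. -/
theorem hz_log_subst {τ L : Type*} [CommRing L] (f : PowerSeries L)
    {F : MvPowerSeries (Fin 2) L} (hF0 : constantCoeff F = 0)
    (hF : (PowerSeries.subst F f : MvPowerSeries (Fin 2) L) =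
      PowerSeries.subst (X 0 : MvPowerSeries (Fin 2) L) f +
        PowerSeries.subst (X 1 : MvPowerSeries (Fin 2) L) f)
    {a b : MvPowerSeries τ L} (ha : constantCoeff a = 0) (hb : constantCoeff b = 0) :
    (PowerSeries.subst (MvPowerSeries.subst ![a, b] F) f : MvPowerSeries τ L) =
      PowerSeries.subst a f + PowerSeries.subst b f := by
  have hs : MvPowerSeries.HasSubst ![a, b] := by
    apply hasSubst_of_constantCoeff_zero
    intro i
    fin_cases i
    · exact ha
    · exact hb
  have h1 : ∀ (G : MvPowerSeries (Fin 2) L) (hG : constantCoeff G = 0),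
      MvPowerSeries.subst ![a, b] (PowerSeries.subst G f : MvPowerSeries (Fin 2) L) =
      PowerSeries.subst (MvPowerSeries.subst ![a, b] G) f := by
    intro G hG
    rw [PowerSeries.subst_def, PowerSeries.subst_def]
    exact subst_comp_subst_apply (PowerSeries.HasSubst.of_constantCoeff_zero hG).const hs _
  rw [← h1 F hF0, hF, subst_add hs, h1 _ (constantCoeff_X 0), h1 _ (constantCoeff_X 1),
    subst_X hs, subst_X hs]
  rfl

end HzPoly

end Vale.Agent.P257.H80
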