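import Vale.Agent.P257.H80.HazDefs
import Vale.Agent.P257.H80.HazFE
import Vale.Agent.P251.F.LazPoly

/-!
# P257: Hazewinkel's logarithm satisfies the functional equation
-/

namespace Vale.Agent.P257.H80

open MvPowerSeries Finsupp Vale.Agent.P217 Vale.Agent.P251.F

section ell

variable (p : ℕ) [hp : Fact p.Prime]

omit hp in
theorem ell_zero : ell p 0 = 1 := by rw [ell]

omit hp in
theorem ell_succ (n : ℕ) : ell p (n + 1) = MvPolynomial.C (1 / (p : ℚ)) *
    ∑ i ∈ Finset.range (n + 1), ell p i * MvPolynomial.X (n - i) ^ p ^ i := by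
  rw [ell, Finset.sum_range]

omit hp in
theorem expand_X_pow' (q a k : ℕ) : MvPolynomial.expand q ((MvPolynomial.X a : MvPolynomial ℕ ℚ) ^ k) =
    MvPolynomial.X a ^ (q * k) := by
  rw [map_pow, MvPolynomial.expand_X, pow_mul]

omit hp in
theorem sum_tri {M : Type*} [AddCommMonoid M] (n : ℕ) (f : ℕ → ℕ → M) :
    ∑ i ∈ Finset.range n, ∑ j ∈ Finset.range (i + 1), f j (i - j) =
      ∑ j ∈ Finset.range n, ∑ k ∈ Finset.range (n - 1 - j + 1), f j k := by
  rw [Finset.sum_sigma', Finset.sum_sigma']
  refine Finset.sum_bij' (fun a _ => ⟨a.2, a.1 - a.2⟩) (fun b _ => ⟨b.1 + b.2, b.1⟩) ?_ ?_ ?_ ?_ ?_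
  · rintro ⟨a, b⟩ h
    simp only [Finset.mem_sigma, Finset.mem_range] at h ⊢
    omega
  · rintro ⟨a, b⟩ h
    simp only [Finset.mem_sigma, Finset.mem_range] at h ⊢
    omega
  · rintro ⟨a, b⟩ h
    simp only [Finset.mem_sigma, Finset.mem_range] at h
    have : b + (a - b) = a := by omega
    simp only [this]
  · rintro ⟨a, b⟩ h
    have : a + b - a = b := by omega
    simp only [this]
  · rintro ⟨a, b⟩ h
    rfl

omit hp in
/-- the functional equation for the coefficients -/
theorem ell_fe (n : ℕ) : ell p (n + 1) = MvPolynomial.C (1 / (p : ℚ)) *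
    ∑ j ∈ Finset.range (n + 1), MvPolynomial.X j * MvPolynomial.expand (p ^ (j + 1))
      (ell p (n - j)) := by
  induction n using Nat.strong_induction_on with
  | _ n ih =>
    rw [ell_succ]
    congr 1
    rw [Finset.sum_range_succ', Finset.sum_range_succ, Nat.sub_self, ell_zero, map_one, pow_zero,
      pow_one, one_mul, mul_one, Nat.sub_zero]
    congr 1
    have h1 : ∀ i ∈ Finset.range n, ell p (i + 1) * MvPolynomial.X (n - (i + 1)) ^ p ^ (i + 1) =
        ∑ j ∈ Finset.range (i + 1), MvPolynomial.C (1 / (p : ℚ)) * (MvPolynomial.X j *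
          MvPolynomial.expand (p ^ (j + 1)) (ell p (i - j)) *
            MvPolynomial.X (n - 1 - j - (i - j)) ^ (p ^ (j + 1) * p ^ (i - j))) := by
      intro i hi
      have hi' := Finset.mem_range.1 hi
      rw [ih i hi', mul_assoc, Finset.sum_mul, Finset.mul_sum]
      refine Finset.sum_congr rfl fun j hj => ?_
      have hj' := Finset.mem_range.1 hj
      have e1 : n - 1 - j - (i - j) = n - (i + 1) := by omega
      have e2 : p ^ (j + 1) * p ^ (i - j) = p ^ (i + 1) := by
        rw [← pow_add]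
        congr 1
        omega
      rw [e1, e2]
    rw [Finset.sum_congr rfl h1, sum_tri n (fun j k => MvPolynomial.C (1 / (p : ℚ)) *
      (MvPolynomial.X j * MvPolynomial.expand (p ^ (j + 1)) (ell p k) *
            MvPolynomial.X (n - 1 - j - k) ^ (p ^ (j + 1) * p ^ k)))]
    refine Finset.sum_congr rfl fun j hj => ?_
    have hj' := Finset.mem_range.1 hj
    have e3 : n - j = (n - 1 - j) + 1 := by omega
    rw [e3, ell_succ, map_mul, MvPolynomial.expand_C, map_sum, Finset.mul_sum, Finset.mul_sum]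
    refine Finset.sum_congr rfl fun k _ => ?_
    rw [map_mul, expand_X_pow']
    ring

omit hp in
theorem hazLog_coeff (m : ℕ) : PowerSeries.coeff m (hazLog p) =
    if m = p ^ Nat.log p m then ell p (Nat.log p m) else 0 := by
  rw [hazLog, PowerSeries.coeff_mk]

theorem hazLog_coeff_pow (k : ℕ) : PowerSeries.coeff (p ^ k) (hazLog p) = ell p k := by
  rw [hazLog_coeff, Nat.log_pow hp.out.one_lt, if_pos rfl]

omit hp in
theorem hazLog_coeff_of_ne {m : ℕ} (hm : ∀ k, m ≠ p ^ k) :
    PowerSeries.coeff m (hazLog p) = 0 := by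
  rw [hazLog_coeff, if_neg (hm _)]

theorem hazLog_zero : PowerSeries.constantCoeff (hazLog p) = 0 := by
  rw [← PowerSeries.coeff_zero_eq_constantCoeff_apply]
  exact hazLog_coeff_of_ne p fun k => (pow_pos hp.out.pos k).ne

theorem hazLog_one : PowerSeries.coeff 1 (hazLog p) = 1 := by
  have h := hazLog_coeff_pow p 0
  rwa [pow_zero, ell_zero] at h

/-- comparison with the truncated logarithms -/
theorem hzCoeff_pow (n k : ℕ) (hk : k ≤ n) : hzCoeff p n (p ^ k) = ell p k := by
  induction k using Nat.strong_induction_on with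
  | _ k ih =>
    rw [hzCoeff_eq]
    rcases k with _ | k
    · rw [pow_zero, if_pos rfl, ell_zero, Finset.sum_eq_zero, add_zero]
      intro i _
      rw [if_neg]
      intro h
      exact absurd (Nat.dvd_one.1 h) (Nat.one_lt_pow (Nat.succ_ne_zero i) hp.out.one_lt).ne'
    · have h1 : p ^ (k + 1) ≠ 1 := (Nat.one_lt_pow (Nat.succ_ne_zero k) hp.out.one_lt).ne'
      rw [if_neg h1, zero_add, ell_fe, Finset.mul_sum]
      symm
      refine Finset.sum_subset_zero_on_sdiff (Finset.range_mono hk) ?_ ?_
      · intro i hi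
        rw [Finset.mem_sdiff, Finset.mem_range, Finset.mem_range] at hi
        rw [if_neg]
        intro h
        have := (Nat.pow_dvd_pow_iff_le_right hp.out.one_lt).1 h
        omega
      · intro i hi
        have hi' := Finset.mem_range.1 hi
        have h2 : p ^ (i + 1) ∣ p ^ (k + 1) := pow_dvd_pow _ (by omega)
        have h3 : p ^ (k + 1) / p ^ (i + 1) = p ^ (k - i) := by
          rw [Nat.pow_div (by omega) hp.out.pos]
          congr 1
          omega
        rw [if_pos h2, h3, ih (k - i) (by omega) (by omega), mul_assoc]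

theorem hzCoeff_of_ne (n m : ℕ) (hm : ∀ k, m ≠ p ^ k) : hzCoeff p n m = 0 := by
  induction m using Nat.strong_induction_on with
  | _ m ih =>
    rcases Nat.eq_zero_or_pos m with rfl | h0
    · exact hzCoeff_zero
    · have h1 : m ≠ 1 := by simpa using hm 0
      rw [hzCoeff_eq, if_neg h1, zero_add]
      refine Finset.sum_eq_zero fun i _ => ?_
      split_ifs with h
      · rw [ih (m / p ^ (i + 1)) (Nat.div_lt_self h0 (Nat.one_lt_pow (Nat.succ_ne_zero i)
          hp.out.one_lt)), map_zero, mul_zero]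
        intro k hk
        apply hm (i + 1 + k)
        rw [pow_add, ← hk, Nat.mul_div_cancel' h]
      · rfl

theorem hzCoeff_eq_coeff (n m : ℕ) (hm : m < p ^ (n + 1)) :
    hzCoeff p n m = PowerSeries.coeff m (hazLog p) := by
  by_cases h : ∃ k, m = p ^ k
  · obtain ⟨k, rfl⟩ := h
    have hk : k < n + 1 := (Nat.pow_lt_pow_iff_right hp.out.one_lt).1 hm
    rw [hzCoeff_pow p n k (by omega), hazLog_coeff_pow]
  · rw [hzCoeff_of_ne p n m fun k hk => h ⟨k, hk⟩, hazLog_coeff_of_ne p fun k hk => h ⟨k, hk⟩]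

end ell

section agree

variable {τ L : Type*} [CommRing L]

theorem agree_subst_of_coeff {g g' : PowerSeries L} {D : ℕ}
    (h : ∀ m < D, PowerSeries.coeff m g = PowerSeries.coeff m g') {A : MvPowerSeries τ L}
    (hA : constantCoeff A = 0) :
    AgreeLT D (PowerSeries.subst A g : MvPowerSeries τ L) (PowerSeries.subst A g') := by
  intro e he
  rw [hz_coeff_subst g hA e (Nat.lt_succ_self _), hz_coeff_subst g' hA e (Nat.lt_succ_self _)]
  refine Finset.sum_congr rfl fun m hm => ?_
  rw [h m (by have := Finset.mem_range.1 hm; omega)]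

/-- the solutions of `g(A) = R` and `g'(A') = R'` agree where the data do -/
theorem agree_of_subst {g g' : PowerSeries L} (h0 : PowerSeries.constantCoeff g = 0)
    (h1 : PowerSeries.coeff 1 g = 1) (h0' : PowerSeries.constantCoeff g' = 0)
    (h1' : PowerSeries.coeff 1 g' = 1) {D : ℕ}
    (h : ∀ m < D, PowerSeries.coeff m g = PowerSeries.coeff m g') {A A' : MvPowerSeries τ L}
    (hA : constantCoeff A = 0) (hA' : constantCoeff A' = 0)
    (hAA : AgreeLT D (PowerSeries.subst A g : MvPowerSeries τ L) (PowerSeries.subst A' g')) :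
    AgreeLT D A A' := by
  have key : ∀ d ≤ D, AgreeLT d A A' := by
    intro d
    induction d with
    | zero => intro _ e he; omega
    | succ d ih =>
      intro hd e he
      have h3 := hAA e (by omega)
      rw [hz_coeff_subst' g h0 h1 hA, hz_coeff_subst' g' h0' h1' hA'] at h3
      have h2 : ∑ m ∈ Finset.range (degree e),
            PowerSeries.coeff (m + 2) g * coeff e (A ^ (m + 2)) =
          ∑ m ∈ Finset.range (degree e),
            PowerSeries.coeff (m + 2) g' * coeff e (A' ^ (m + 2)) := by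
        refine Finset.sum_congr rfl (fun i hi => ?_)
        have hi' := Finset.mem_range.1 hi
        rw [(ih (by omega)).pow hA hA' (by omega) e he]
        rcases Nat.lt_or_ge (i + 2) D with hD | hD
        · rw [h _ hD]
        · have hz : coeff e (A' ^ (i + 2)) = 0 := by
            apply coeff_eq_zero_of_constantCoeff_nilpotent (m := 1) (by rw [hA']; simp)
            omega
          rw [hz, mul_zero, mul_zero]
      rw [h2] at h3
      exact add_right_cancel h3
  exact key D le_rfl

end agree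

section law

variable (p : ℕ) [hp : Fact p.Prime]

/-- Hazewinkel's logarithm as an invertible series -/
noncomputable def hazInv : InvSeries (MvPolynomial ℕ ℚ) :=
  ⟨hazLog p, hazLog_zero p, by rw [hazLog_one]; exact isUnit_one⟩

/-- Hazewinkel's law over `ℚ[v_1, v_2, …]` -/
noncomputable def hazQ : Law (MvPolynomial ℕ ℚ) := (hazInv p)⁻¹ • addLaw _

theorem subst_addLaw {L : Type*} [CommRing L] (a b : MvPowerSeries (Fin 2) L)
    (ha : constantCoeff a = 0) (hb : constantCoeff b = 0) :
    MvPowerSeries.subst ![a, b] (addLaw L).ps = a + b := by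
  have hs : MvPowerSeries.HasSubst ![a, b] := by
    apply hasSubst_of_constantCoeff_zero
    intro i
    fin_cases i
    · exact ha
    · exact hb
  rw [addLaw_ps, subst_add hs, subst_X hs, subst_X hs]
  rfl

theorem hazQ_log : (PowerSeries.subst (hazQ p).ps (hazLog p) :
    MvPowerSeries (Fin 2) (MvPolynomial ℕ ℚ)) =
      PowerSeries.subst (X 0 : MvPowerSeries (Fin 2) (MvPolynomial ℕ ℚ)) (hazLog p) +
        PowerSeries.subst (X 1 : MvPowerSeries (Fin 2) (MvPolynomial ℕ ℚ)) (hazLog p) := by
  have h : IsHom (hazQ p).toFG (addLaw (MvPolynomial ℕ ℚ)).toFG (hazInv p).val := by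
    have h1 := InvSeries.isHom_smul (hazInv p) (hazQ p)
    rwa [hazQ, smul_inv_smul] at h1
  have h2 := h.2
  have h0 : ∀ i : Fin 2, constantCoeff (PowerSeries.subst
      (X i : MvPowerSeries (Fin 2) (MvPolynomial ℕ ℚ)) (hazLog p) :
        MvPowerSeries (Fin 2) (MvPolynomial ℕ ℚ)) = 0 := by
    intro i
    rw [← coeff_zero_eq_constantCoeff_apply,
      hz_coeff_subst (hazLog p) (constantCoeff_X i) 0 (M := 1) (by simp), Finset.sum_range_one,
      PowerSeries.coeff_zero_eq_constantCoeff_apply, hazLog_zero, zero_mul]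
  have h3 := subst_addLaw _ _ (h0 0) (h0 1)
  exact h2.trans h3

theorem constantCoeff_hazQ : constantCoeff (hazQ p).ps = 0 := (hazQ p).toFG.zero_constantCoeff

/-- the coefficients of Hazewinkel's law are integral -/
theorem hazQ_integral (e : Fin 2 →₀ ℕ) :
    ∃ z : MvPolynomial ℕ ℤ, coeff e (hazQ p).ps = hzI z := by
  obtain ⟨n, hn⟩ : ∃ n, degree e < p ^ (n + 1) :=
    ⟨degree e, (Nat.lt_pow_self hp.out.one_lt).trans
      (Nat.pow_lt_pow_right hp.out.one_lt (Nat.lt_succ_self _))⟩
  set f : PowerSeries (MvPolynomial ℕ ℚ) := PowerSeries.mk (hzCoeff p n) with hfdef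
  have hf0 : PowerSeries.constantCoeff f = 0 := by
    rw [← PowerSeries.coeff_zero_eq_constantCoeff_apply, hfdef, PowerSeries.coeff_mk, hzCoeff_zero]
  have hf : HzEq p n f := by
    intro m
    simp only [hfdef, PowerSeries.coeff_mk]
    exact hzCoeff_eq m
  have hX0 : ∀ i : Fin 2, constantCoeff (PowerSeries.subst
      (X i : MvPowerSeries (Fin 2) (MvPolynomial ℕ ℚ)) f :
        MvPowerSeries (Fin 2) (MvPolynomial ℕ ℚ)) = 0 := by
    intro i
    rw [← coeff_zero_eq_constantCoeff_apply,
      hz_coeff_subst f (constantCoeff_X i) 0 (M := 1) (by simp), Finset.sum_range_one,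
      PowerSeries.coeff_zero_eq_constantCoeff_apply, hf0, zero_mul]
  obtain ⟨F, hF0, hF⟩ := hz_surjective f hf0 hf.coeff_one
    (PowerSeries.subst (X 0 : MvPowerSeries (Fin 2) (MvPolynomial ℕ ℚ)) f +
        PowerSeries.subst (X 1 : MvPowerSeries (Fin 2) (MvPolynomial ℕ ℚ)) f)
    (by rw [map_add, hX0, hX0, add_zero])
  obtain ⟨z, hz⟩ := hz_integral hf0 hf hF0 hF e
  refine ⟨z, ?_⟩
  rw [← hz]
  have hc : ∀ m < p ^ (n + 1), PowerSeries.coeff m (hazLog p) = PowerSeries.coeff m f := by
    intro m hm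
    rw [hfdef, PowerSeries.coeff_mk, hzCoeff_eq_coeff p n m hm]
  refine agree_of_subst (hazLog_zero p) (hazLog_one p) hf0 hf.coeff_one (D := p ^ (n + 1)) hc
    (constantCoeff_hazQ p) hF0 ?_ e hn
  rw [hazQ_log, hF]
  intro e he
  rw [map_add, map_add, agree_subst_of_coeff hc (constantCoeff_X 0) e he,
    agree_subst_of_coeff hc (constantCoeff_X 1) e he]

theorem lift_hazQ_mem (x : Laz) : Laz.lift (hazQ p) x ∈ (hzI).range := by
  obtain ⟨y, rfl⟩ := Laz.mk_surjective x
  induction y using MvPolynomial.induction_on with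
  | C a =>
    refine ⟨MvPolynomial.C a, ?_⟩
    have h1 : Laz.mk (MvPolynomial.C a) = (a : Laz) := by
      have := map_intCast (Laz.mk.comp (MvPolynomial.C (σ := ℕ × ℕ))) a
      simpa using this
    rw [h1, map_intCast]
    simp
  | add a b ha hb =>
    rw [map_add, map_add]
    exact Subring.add_mem _ ha hb
  | mul_X a i ha =>
    rw [map_mul, map_mul]
    refine Subring.mul_mem _ ha ?_
    obtain ⟨i, j⟩ := i
    change Laz.lift (hazQ p) (Laz.a i j) ∈ _
    rw [Laz.lift_a]
    obtain ⟨z, hz⟩ := hazQ_integral p (e2 (i + 1) (j + 1))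
    exact ⟨z, hz.symm⟩

/-- `ℤ[v] ≅` its image in `ℚ[v]` -/
noncomputable def hzE : MvPolynomial ℕ ℤ ≃+* (hzI).range :=
  RingEquiv.ofBijective (hzI).rangeRestrict
    ⟨fun _ _ h => hzI_injective (congrArg Subtype.val h), RingHom.rangeRestrict_surjective (hzI)⟩

/-- The classifying homomorphism of Hazewinkel's law, `Laz → ℤ[v_1, v_2, …]`. -/
noncomputable def hazHom : Laz →+* MvPolynomial ℕ ℤ :=
  (hzE.symm : (hzI).range →+* MvPolynomial ℕ ℤ).comp
    ((Laz.lift (hazQ p)).codRestrict (hzI).range (lift_hazQ_mem p))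

theorem hzI_hazHom (x : Laz) : hzI (hazHom p x) = Laz.lift (hazQ p) x :=
  congrArg Subtype.val (hzE.apply_symm_apply ((Laz.lift (hazQ p)).codRestrict (hzI).range
    (lift_hazQ_mem p) x))

/-- **Hazewinkel's law** over `ℤ[v_1, v_2, …]`. -/
noncomputable def haz : Law (MvPolynomial ℕ ℤ) := Laz.univ.map (hazHom p)

theorem haz_map : (haz p).map hzI = hazQ p := by
  rw [haz, Law.map_map]
  have h : (hzI).comp (hazHom p) = Laz.lift (hazQ p) := RingHom.ext (hzI_hazHom p)
  rw [h, Laz.univ_map_lift]

end law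

end Vale.Agent.P257.H80
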