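import Vale.Agent.P257.H80.StBP
import Vale.Agent.P257.H80.HazLog

/-!
# P257 (helper80): Hazewinkel's law of the statement layer is `haz`
-/

set_option linter.unusedSectionVars false

noncomputable section

namespace Vale.Agent.P257.H80

open Vale.Agent.P251 Vale.Agent.P251.F MvPowerSeries

variable (p : ℕ) [hp : Fact p.Prime]

theorem isHaz_haz : P257.St.IsHaz p (haz p).ps := by
  have h1 : MvPowerSeries.map (MvPolynomial.map (Int.castRingHom ℚ)) (haz p).ps = (hazQ p).ps := by
    rw [← haz_map]
    rfl
  refine ⟨(haz p).toFG.zero_constantCoeff, ?_⟩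
  rw [h1]
  exact hazQ_log p

theorem isHaz_iff (F : MvPowerSeries (Fin 2) (MvPolynomial ℕ ℤ)) :
    P257.St.IsHaz p F ↔ F = (haz p).ps := by
  constructor
  · rintro ⟨h0, h⟩
    have h1 : MvPowerSeries.map (MvPolynomial.map (Int.castRingHom ℚ)) (haz p).ps = (hazQ p).ps := by
      rw [← haz_map]
      rfl
    have h2 : constantCoeff (MvPowerSeries.map (MvPolynomial.map (Int.castRingHom ℚ)) F) = 0 := by
      rw [MvPowerSeries.constantCoeff_map, h0, map_zero]
    ext1 e
    apply hzI_injective
    have h3 := agree_of_subst (hazLog_zero p) (hazLog_one p) (hazLog_zero p) (hazLog_one p)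
      (D := e.degree + 1) (fun _ _ => rfl) h2 (constantCoeff_hazQ p) (fun d _ => by
        rw [h, hazQ_log]) e (Nat.lt_succ_self _)
    rw [← h1, MvPowerSeries.coeff_map, MvPowerSeries.coeff_map] at h3
    exact h3
  · rintro rfl
    exact isHaz_haz p

end Vale.Agent.P257.H80
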