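import Vale.Agent.P257.H80.HazTyp
import Vale.Agent.P251.F.LazWt
import Mathlib.RingTheory.MvPolynomial.WeightedHomogeneous
import Mathlib.RingTheory.Localization.FractionRing

/-!
# P257: Hazewinkel's law is homogeneous
-/

namespace Vale.Agent.P257.H80

open MvPowerSeries Finsupp Vale.Agent.P217 Vale.Agent.P251.F

section

variable {B : Type*} [CommRing B]

theorem c_conj_lin (u : Bˣ) (g : InvSeries B) (k : ℕ) :
    ((InvSeries.lin u)⁻¹ * g * InvSeries.lin u).c k = (u : B) ^ k * g.c k := by
  have h1 : ((InvSeries.lin u)⁻¹ * g * InvSeries.lin u).val =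
      PowerSeries.C ((u⁻¹ : Bˣ) : B) * PowerSeries.subst
        (PowerSeries.C (u : B) * PowerSeries.X : PowerSeries B) g.val := by
    rw [mul_assoc, ← map_inv, InvSeries.mul_val, InvSeries.lin_val,
      PowerSeries.subst_mul (g * InvSeries.lin u).hs, PowerSeries.subst_X (g * InvSeries.lin u).hs,
      PowerSeries.subst_C, InvSeries.mul_val, InvSeries.lin_val]
    rfl
  have h2 : (PowerSeries.subst (PowerSeries.C (u : B) * PowerSeries.X : PowerSeries B) g.val :
      PowerSeries B) = PowerSeries.rescale (u : B) g.val := by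
    rw [PowerSeries.rescale_eq_subst, PowerSeries.smul_eq_C_mul]
  rw [InvSeries.c, h1, h2, PowerSeries.coeff_C_mul, PowerSeries.coeff_rescale, ← mul_assoc,
    pow_succ', ← mul_assoc, Units.inv_mul, one_mul]
  rfl

theorem ext_lin_inv_smul {F G : Law B} (u : Bˣ)
    (h : ∀ d, (u : B) * coeff d G.ps = (u : B) ^ d.degree * coeff d F.ps) :
    G = (InvSeries.lin u)⁻¹ • F := by
  apply Law.ext_ps
  ext d
  have h1 := (coeff_lin_inv_smul u F d).trans (h d).symm
  exact ((Units.mul_right_inj u).1 h1).symm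

theorem lin_smul_addLaw (u : Bˣ) : InvSeries.lin u • addLaw B = addLaw B := by
  have h : addLaw B = (InvSeries.lin u)⁻¹ • addLaw B := by
    refine ext_lin_inv_smul u fun d => ?_
    by_cases hd : d.degree = 1
    · rw [hd, pow_one]
    · have h0 : coeff d (addLaw B).ps = 0 := by
        classical
        rw [addLaw_ps, map_add, coeff_X, coeff_X, if_neg, if_neg, add_zero]
        · rintro rfl
          exact hd (by simp)
        · rintro rfl
          exact hd (by simp)
      rw [h0, mul_zero, mul_zero]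
  conv_lhs => rw [h]
  rw [smul_inv_smul]

end

section

variable (p : ℕ) [hp : Fact p.Prime]

theorem ell_scale {K : Type*} [CommRing K] [Algebra ℚ K] (ψ ψ' : MvPolynomial ℕ ℚ →ₐ[ℚ] K) (u : K)
    (h : ∀ k, ψ' (MvPolynomial.X k) = u ^ (p ^ (k + 1) - 1) * ψ (MvPolynomial.X k)) (m : ℕ) :
    ψ' (ell p m) = u ^ (p ^ m - 1) * ψ (ell p m) := by
  induction m using Nat.strong_induction_on with
  | _ m ih =>
    rcases m with _ | m
    · rw [ell_zero, map_one, map_one, pow_zero, Nat.sub_self, pow_zero, mul_one]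
    · rw [ell_succ, map_mul, map_mul, map_sum, map_sum]
      have hC : ψ' (MvPolynomial.C (1 / (p : ℚ))) = ψ (MvPolynomial.C (1 / (p : ℚ))) := by
        have e1 := ψ.commutes (1 / (p : ℚ))
        have e2 := ψ'.commutes (1 / (p : ℚ))
        rw [MvPolynomial.algebraMap_eq] at e1 e2
        rw [e1, e2]
      rw [hC, mul_left_comm]
      congr 1
      rw [Finset.mul_sum]
      refine Finset.sum_congr rfl fun i hi => ?_
      rw [Finset.mem_range] at hi
      rw [map_mul, map_mul, map_pow, map_pow, ih i hi, h, mul_pow, ← pow_mul]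
      have e3 : u ^ (p ^ (m + 1) - 1) = u ^ (p ^ i - 1) * u ^ ((p ^ (m - i + 1) - 1) * p ^ i) := by
        rw [← pow_add]
        congr 1
        have e4 : p ^ (m - i + 1) * p ^ i = p ^ (m + 1) := by
          rw [← pow_add]
          congr 1
          omega
        rw [Nat.sub_mul, e4, one_mul]
        have e5 : 0 < p ^ i := pow_pos hp.out.pos i
        have e6 : p ^ i ≤ p ^ (m + 1) := Nat.pow_le_pow_right hp.out.pos (by omega)
        omega
      rw [e3]
      ring

theorem hazQ_scale {K : Type*} [CommRing K] [Algebra ℚ K] (ψ ψ' : MvPolynomial ℕ ℚ →ₐ[ℚ] K)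
    (u : Kˣ)
    (h : ∀ k, ψ' (MvPolynomial.X k) = (u : K) ^ (p ^ (k + 1) - 1) * ψ (MvPolynomial.X k)) :
    (hazQ p).map (ψ' : MvPolynomial ℕ ℚ →+* K) =
      (InvSeries.lin u)⁻¹ • (hazQ p).map (ψ : MvPolynomial ℕ ℚ →+* K) := by
  have h1 : InvSeries.map (ψ' : MvPolynomial ℕ ℚ →+* K) (hazInv p) =
      (InvSeries.lin u)⁻¹ * InvSeries.map (ψ : MvPolynomial ℕ ℚ →+* K) (hazInv p) *
        InvSeries.lin u := by
    apply InvSeries.ext_c
    intro n
    rw [c_conj_lin, InvSeries.c_map, InvSeries.c_map, hazInv_c]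
    by_cases hn : ∃ m, n + 1 = p ^ m
    · obtain ⟨m, hm⟩ := hn
      rw [hm, hazLog_coeff_pow]
      have h2 := ell_scale p ψ ψ' (u : K) h m
      rw [← hm, Nat.add_sub_cancel] at h2
      exact h2
    · rw [hazLog_coeff_of_ne p fun m hm' => hn ⟨m, hm'⟩, map_zero, map_zero, mul_zero]
  rw [hazQ, InvSeries.map_smul, InvSeries.map_smul, map_inv, map_inv, map_addLaw, map_addLaw, h1,
    mul_inv_rev, mul_inv_rev, inv_inv, mul_smul, mul_smul, lin_smul_addLaw]

/-- the universal rescaling -/
noncomputable def scU : MvPolynomial ℕ ℤ →+* MvPolynomial (Option ℕ) ℤ :=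
  MvPolynomial.eval₂Hom (Int.castRingHom _) fun k =>
    MvPolynomial.X none ^ (p ^ (k + 1) - 1) * MvPolynomial.X (Option.some k)

/-- the universal specialisation -/
noncomputable def spU : MvPolynomial ℕ ℤ →+* MvPolynomial (Option ℕ) ℤ :=
  MvPolynomial.eval₂Hom (Int.castRingHom _) fun k => MvPolynomial.X (Option.some k)

theorem haz_scale_univ (d : Fin 2 →₀ ℕ) :
    MvPolynomial.X none * scU p (coeff d (haz p).ps) =
      MvPolynomial.X none ^ d.degree * spU (coeff d (haz p).ps) := by
  set K := FractionRing (MvPolynomial (Option ℕ) ℚ)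
  set j : MvPolynomial (Option ℕ) ℤ →+* K := (algebraMap (MvPolynomial (Option ℕ) ℚ) K).comp
    (MvPolynomial.map (Int.castRingHom ℚ)) with hj
  have hinj : Function.Injective j :=
    (IsFractionRing.injective (MvPolynomial (Option ℕ) ℚ) K).comp
      (MvPolynomial.map_injective _ Int.cast_injective)
  have hu : j (MvPolynomial.X none) ≠ 0 := by
    rw [Ne, map_eq_zero_iff j hinj]
    exact MvPolynomial.X_ne_zero _
  set ψ : MvPolynomial ℕ ℚ →ₐ[ℚ] K :=
    MvPolynomial.aeval fun k => j (MvPolynomial.X (Option.some k)) with hψ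
  set ψ' : MvPolynomial ℕ ℚ →ₐ[ℚ] K :=
    MvPolynomial.aeval fun k => j (MvPolynomial.X none) ^ (p ^ (k + 1) - 1) *
      j (MvPolynomial.X (Option.some k)) with hψ'
  have e1 : j.comp spU = (ψ : MvPolynomial ℕ ℚ →+* K).comp hzI := by
    apply MvPolynomial.ringHom_ext
    · intro r
      simp
    · intro i
      simp [spU, hψ]
  have e2 : j.comp (scU p) = (ψ' : MvPolynomial ℕ ℚ →+* K).comp hzI := by
    apply MvPolynomial.ringHom_ext
    · intro r
      simp
    · intro i
      simp [scU, hψ']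
  have h1 := hazQ_scale p ψ ψ' (Units.mk0 _ hu) (fun k => by
    rw [hψ, hψ', MvPolynomial.aeval_X, MvPolynomial.aeval_X, Units.val_mk0])
  rw [← haz_map, Law.map_map, Law.map_map, ← e1, ← e2] at h1
  have h2 := coeff_lin_inv_smul (Units.mk0 _ hu) ((haz p).map (j.comp spU)) d
  rw [← h1, Law.map_ps, Law.map_ps, coeff_map, coeff_map, Units.val_mk0] at h2
  apply hinj
  rw [map_mul, map_mul, map_pow]
  exact h2

variable {B : Type*} [CommRing B]

theorem haz_scale {φ φ' : MvPolynomial ℕ ℤ →+* B} (b : B)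
    (h : ∀ k, φ' (MvPolynomial.X k) = b ^ (p ^ (k + 1) - 1) * φ (MvPolynomial.X k))
    {d : Fin 2 →₀ ℕ} {m : ℕ} (hd : d.degree = m + 1) :
    φ' (coeff d (haz p).ps) = b ^ m * φ (coeff d (haz p).ps) := by
  set θ : MvPolynomial (Option ℕ) ℤ →+* B := MvPolynomial.eval₂Hom (Int.castRingHom B)
    (fun o => o.elim b fun k => φ (MvPolynomial.X k)) with hθ
  have e1 : θ.comp spU = φ := by
    apply MvPolynomial.ringHom_ext
    · intro r
      simp
    · intro i
      simp [spU, hθ]
  have e2 : θ.comp (scU p) = φ' := by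
    apply MvPolynomial.ringHom_ext
    · intro r
      simp
    · intro i
      simp [scU, hθ, h]
  have h1 := haz_scale_univ p d
  rw [hd, pow_succ', mul_assoc] at h1
  have h2 := mul_left_cancel₀ (MvPolynomial.X_ne_zero _) h1
  have h3 := congrArg θ h2
  rw [map_mul, map_pow] at h3
  rw [← RingHom.comp_apply, e2, ← RingHom.comp_apply, e1] at h3
  rw [h3]
  simp [hθ]

theorem haz_lin (u : Bˣ) {φ φ' : MvPolynomial ℕ ℤ →+* B}
    (h : ∀ k, φ' (MvPolynomial.X k) = (u : B) ^ (p ^ (k + 1) - 1) * φ (MvPolynomial.X k)) :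
    (haz p).map φ' = (InvSeries.lin u)⁻¹ • (haz p).map φ := by
  refine ext_lin_inv_smul u fun d => ?_
  rw [Law.map_ps, Law.map_ps, coeff_map, coeff_map]
  rcases hd : d.degree with _ | m
  · have h0 : d = 0 := (Finsupp.degree_eq_zero_iff d).1 hd
    have h1 : coeff d (haz p).ps = 0 := by
      rw [h0]
      exact (haz p).toFG.zero_constantCoeff
    rw [h1, map_zero, map_zero, mul_zero, mul_zero]
  · rw [haz_scale p (u : B) h hd, pow_succ', mul_assoc]

/-- the weights of `v_1, v_2, …` -/
def wv (i : ℕ) : ℕ := p ^ (i + 1) - 1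

/-- **Hazewinkel's law is homogeneous.** -/
theorem haz_homog {d : Fin 2 →₀ ℕ} {m : ℕ} (hd : d.degree = m + 1) :
    (coeff d (haz p).ps).IsWeightedHomogeneous (wv p) m := by
  classical
  set a := coeff d (haz p).ps with ha
  set φ' : MvPolynomial ℕ ℤ →+* Polynomial (MvPolynomial ℕ ℤ) :=
    MvPolynomial.eval₂Hom (Int.castRingHom _) fun k =>
      Polynomial.X ^ (p ^ (k + 1) - 1) * Polynomial.C (MvPolynomial.X k) with hφ'
  have h1 := haz_scale p (φ := (Polynomial.C : MvPolynomial ℕ ℤ →+* _)) (φ' := φ')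
    Polynomial.X (fun k => by simp [hφ']) hd
  have h2 : ∀ (e : ℕ →₀ ℕ) (r : ℤ), φ' (MvPolynomial.monomial e r) =
      Polynomial.C (MvPolynomial.monomial e r) * Polynomial.X ^ (Finsupp.weight (wv p) e) := by
    intro e r
    rw [hφ', MvPolynomial.coe_eval₂Hom, MvPolynomial.eval₂_monomial]
    have h3 : MvPolynomial.monomial e r = MvPolynomial.C r * ∏ i ∈ e.support,
        (MvPolynomial.X i : MvPolynomial ℕ ℤ) ^ e i := by
      rw [MvPolynomial.monomial_eq]
      rfl
    rw [h3, map_mul, map_prod, Finsupp.weight_apply, Finsupp.sum, ← Finset.prod_pow_eq_pow_sum,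
      mul_assoc, ← Finset.prod_mul_distrib, Finsupp.prod]
    congr 1
    refine Finset.prod_congr rfl fun i _ => ?_
    rw [mul_pow, ← pow_mul, map_pow, smul_eq_mul, mul_comm, wv, mul_comm (e i)]
  intro e he
  have h4 : φ' a = ∑ e' ∈ a.support, Polynomial.C (MvPolynomial.monomial e' (a.coeff e')) *
      Polynomial.X ^ (Finsupp.weight (wv p) e') := by
    conv_lhs => rw [a.as_sum]
    rw [map_sum]
    exact Finset.sum_congr rfl fun e' _ => h2 e' _
  rw [← ha, h4] at h1
  have h5 := congrArg (fun q => MvPolynomial.coeff e (Polynomial.coeff q (Finsupp.weight (wv p) e)))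
    h1
  rw [Polynomial.finset_sum_coeff, MvPolynomial.coeff_sum] at h5
  rw [Finset.sum_eq_single e] at h5
  · rw [Polynomial.coeff_C_mul, Polynomial.coeff_X_pow, if_pos rfl, mul_one,
      MvPolynomial.coeff_monomial, if_pos rfl, mul_comm, Polynomial.coeff_C_mul,
      Polynomial.coeff_X_pow] at h5
    by_contra hne
    rw [if_neg hne, mul_zero, MvPolynomial.coeff_zero] at h5
    exact he h5
  · intro e' _ hne
    rw [Polynomial.coeff_C_mul, Polynomial.coeff_X_pow]
    split_ifs
    · rw [mul_one, MvPolynomial.coeff_monomial, if_neg hne]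
    · rw [mul_zero, MvPolynomial.coeff_zero]
  · intro hes
    exact absurd (MvPolynomial.mem_support_iff.2 he) hes

/-- rescaling -/
theorem typ_lin (hB : PLoc p B) (u : Bˣ) (F : Law B) (n : ℕ) :
    typ p hB ((InvSeries.lin u)⁻¹ • F) n = (u : B) ^ (n + 1) * typ p hB F n := by
  have h := isTyp_typ p hB F
  set c := typ p hB F with hc
  have h1 : IsTyp p ((InvSeries.lin u)⁻¹ • F) fun n => (u : B) ^ (n + 1) * c n := by
    unfold IsTyp at h ⊢
    have e1 : strictMk (bS p fun n => (u : B) ^ (n + 1) * c n) =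
        (InvSeries.lin u)⁻¹ * strictMk (bS p c) * InvSeries.lin u := by
      apply InvSeries.ext_c
      intro k
      rw [c_conj_lin]
      rcases k with _ | k
      · rw [c_zero_strictMk, c_zero_strictMk, pow_zero, mul_one]
      · rw [c_succ_strictMk, c_succ_strictMk]
        unfold bS
        split_ifs
        · rw [mul_zero]
        · rfl
    rw [e1, mul_smul, smul_inv_smul, mul_smul, h]
    refine (haz_lin p u fun k => ?_).symm
    rw [vS_X, vS_X]
    congr 2
    have h4 := two_le_pow (k := k + 1) hp.out (Nat.succ_ne_zero k)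
    omega
  exact (congrFun (eq_typ p hB h1) n).symm

end

end Vale.Agent.P257.H80
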