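import Vale.Agent.P257.H80.MonMap
import Vale.Agent.P251.F.VTwist

/-!
# P257 (helper80): monoid maps out of `MU` and strict series

For two monoid maps `u, u' : MU ⟶ K` the strict isomorphism `ser u u'` from the law of `u` to the
law of `u'`. It determines `u'`, and every strict series with homogeneous coefficients occurs.
-/

open CategoryTheory MonoidalCategory MonObj Limits Pretriangulated

set_option linter.unusedSectionVars false

universe v u

namespace Vale.Agent.P257.H80

open Vale.Agent.P251 Vale.Agent.P251.S Vale.Agent.P251.T Vale.Agent.P251.M Vale.Agent.P251.F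
  Vale.Agent.P251.I EvenSpheres

variable {T : Type u} [Category.{v} T] [Preadditive T] [HasZeroObject T]
    [HasShift T ℤ] [∀ n : ℤ, (shiftFunctor T n).Additive] [Pretriangulated T] [IsTriangulated T]
    [MonoidalCategory T] [SymmetricCategory T] [TensorTriangulated T] [MonoidalClosed T]
    [HasCoproducts.{0} T] [HasProducts.{0} T] [StableCat T]

theorem HRing_map_congr' {X Y : T} [MonObj X] [MonObj Y] {f g : X ⟶ Y} [IsMonHom f] [IsMonHom g]
    (h : f = g) : HRing.map (E := stdEven T) f = HRing.map g := by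
  subst h
  rfl

section

variable {D : MUData T} {K : T} [MonObj K] [IsCommMonObj K]

/-- the monoid map `MU ⊗ MU ⟶ K` with components `u` and `u'` -/
noncomputable def pairM (u u' : D.R ⟶ K) : Am D.R 2 ⟶ K := descM (amOne D.R ≫ u) u'

instance (u u' : D.R ⟶ K) [IsMonHom u] [IsMonHom u'] : IsMonHom (pairM u u') :=
  inferInstanceAs (IsMonHom (descM (amOne D.R ≫ u) u'))

theorem v_zero_pairM (u u' : D.R ⟶ K) [IsMonHom u] [IsMonHom u'] :
    Am.v D.R (0 : Fin 2) ≫ pairM u u' = u := by
  have h : Am.v D.R (0 : Fin 2) = Am.v D.R (0 : Fin 1) ≫ inlM (Am D.R 1) D.R :=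
    Am.v_castSucc D.R (0 : Fin 1)
  rw [h, Category.assoc, pairM, inlM_descM, ← Category.assoc, v_amOne, Category.id_comp]

theorem v_one_pairM (u u' : D.R ⟶ K) [IsMonHom u] [IsMonHom u'] :
    Am.v D.R (1 : Fin 2) ≫ pairM u u' = u' := by
  have h : Am.v D.R (1 : Fin 2) = inrM (Am D.R 1) D.R := Am.v_last D.R 1
  rw [h, pairM, inrM_descM]

theorem eq_pairM {g : Am D.R 2 ⟶ K} [IsMonHom g] {u u' : D.R ⟶ K} [IsMonHom u] [IsMonHom u']
    (h0 : Am.v D.R (0 : Fin 2) ≫ g = u) (h1 : Am.v D.R (1 : Fin 2) ≫ g = u') :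
    g = pairM u u' := by
  apply Am.hom_ext
  intro i
  fin_cases i
  · exact h0.trans (v_zero_pairM u u').symm
  · exact h1.trans (v_one_pairM u u').symm

theorem pairM_comp {K' : T} [MonObj K'] [IsCommMonObj K'] (f : K ⟶ K') [IsMonHom f]
    (u u' : D.R ⟶ K) [IsMonHom u] [IsMonHom u'] :
    pairM u u' ≫ f = pairM (u ≫ f) (u' ≫ f) := by
  apply eq_pairM
  · rw [← Category.assoc, v_zero_pairM]
  · rw [← Category.assoc, v_one_pairM]

/-- the law of `u : MU ⟶ K` -/
noncomputable def lawOf (u : D.R ⟶ K) [IsMonHom u] : Law (HRing (stdEven T) K) :=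
  D.law.map (HRing.map (E := stdEven T) u)

/-- the strict isomorphism from the law of `u` to the law of `u'` -/
noncomputable def ser (u u' : D.R ⟶ K) [IsMonHom u] [IsMonHom u'] :
    InvSeries (HRing (stdEven T) K) :=
  InvSeries.map (HRing.map (E := stdEven T) (pairM u u')) D.strictIso

theorem ser_strict (u u' : D.R ⟶ K) [IsMonHom u] [IsMonHom u'] :
    ser u u' ∈ strict (HRing (stdEven T) K) := by
  have h := D.strictIso_c
  change (ser u u').c 0 = 1
  rw [ser, InvSeries.c_map, h, map_one]

theorem ser_smul (u u' : D.R ⟶ K) [IsMonHom u] [IsMonHom u'] :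
    ser u u' • lawOf u = lawOf u' := by
  have h := congrArg (fun L => L.map (HRing.map (E := stdEven T) (pairM u u'))) D.strictIso_smul
  rw [InvSeries.map_smul, Law.map_map, Law.map_map, ← HRing.map_comp, ← HRing.map_comp,
    HRing_map_congr' (v_zero_pairM u u'), HRing_map_congr' (v_one_pairM u u')] at h
  exact h

theorem ser_comp {K' : T} [MonObj K'] [IsCommMonObj K'] (f : K ⟶ K') [IsMonHom f]
    (u u' : D.R ⟶ K) [IsMonHom u] [IsMonHom u'] :
    ser (u ≫ f) (u' ≫ f) = InvSeries.map (HRing.map f) (ser u u') := by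
  rw [ser, ← HRing_map_congr' (pairM_comp f u u'), ser, HRing.map_comp]
  apply InvSeries.ext_c
  intro n
  rw [InvSeries.c_map, InvSeries.c_map, InvSeries.c_map]
  rfl

theorem lawOf_comp {K' : T} [MonObj K'] [IsCommMonObj K'] (f : K ⟶ K') [IsMonHom f]
    (u : D.R ⟶ K) [IsMonHom u] : lawOf (u ≫ f) = (lawOf u).map (HRing.map f) := by
  rw [lawOf, lawOf, Law.map_map, HRing.map_comp]

/-- `ev 1` followed by `HRing.map (pairM u u')` on the variables -/
theorem ser_c (u u' : D.R ⟶ K) [IsMonHom u] [IsMonHom u'] (i : ℕ) :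
    (ser u u').c (i + 1) =
      HRing.map (E := stdEven T) (pairM u u') (D.ev 1 (MvPolynomial.X (0, i))) := by
  rw [ser, InvSeries.c_map, MUData.strictIso, InvSeries.c_map]
  have h : ((Cob.univ Laz 1).g 1).c (i + 1) = MvPolynomial.X ((0 : Fin 1), i) := by
    have h1 : (Cob.univ Laz 1).g 1 = strictMk fun m => MvPolynomial.X ((0 : Fin 1), m) :=
      Cob.univ_g_succ (0 : Fin 1)
    rw [h1, c_succ_strictMk]
  rw [h]

theorem ringHom_monomial {R A : Type*} [CommRing R] [CommRing A]
    {φ ψ : MvPolynomial (Fin 1 × ℕ) R →+* A}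
    (h : ∀ m, φ (MvPolynomial.X (0, m)) = ψ (MvPolynomial.X (0, m))) (a : Fin 1 × ℕ →₀ ℕ) :
    φ (MvPolynomial.monomial a 1) = ψ (MvPolynomial.monomial a 1) := by
  rw [MvPolynomial.monomial_eq, MvPolynomial.C_1, _root_.one_mul, map_finsuppProd, map_finsuppProd]
  refine Finsupp.prod_congr fun im _ => ?_
  obtain ⟨i, m⟩ := im
  obtain rfl : i = 0 := Subsingleton.elim _ _
  rw [map_pow, map_pow, h]

theorem toKR_descM (u u' : D.R ⟶ K) [IsMonHom u] [IsMonHom u'] :
    D.toKR u ≫ descM (𝟙 K) u' = pairM u u' := by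
  apply eq_pairM
  · rw [← Category.assoc, D.v_zero_toKR, Category.assoc, inlM_descM, Category.comp_id]
  · rw [← Category.assoc, D.v_one_toKR, inrM_descM]

theorem of_injective {X : T} {n : ℤ} {a b : (stdEven T).S n ⟶ X}
    (h : HRing.of (stdEven T) X n a = HRing.of (stdEven T) X n b) : a = b :=
  DirectSum.of_injective (β := (stdEven T).Gr X) _ h

variable {F : SpaceFunctor T} {e : F.S.obj CCF ≅ (stdEven T).L}

/-- **A monoid map out of `MU` is determined by the series.** -/
theorem eq_of_ser (hD : MUUniv e D) {u u' u'' : D.R ⟶ K} [IsMonHom u] [IsMonHom u']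
    [IsMonHom u''] (h : ser u u' = ser u u'') : u' = u'' := by
  obtain ⟨b, hk, hw⟩ := D.exists_basis_of u hD
  have key : descM (𝟙 K) u' = descM (𝟙 K) u'' := by
    refine mon_hom_ext b (by rw [inlM_descM, inlM_descM]) fun a => ?_
    apply of_injective
    have h1 : ∀ (w : D.R ⟶ K) [IsMonHom w], HRing.of (stdEven T) K _ (b.w a ≫ descM (𝟙 K) w) =
        (HRing.map (E := stdEven T) (pairM u w)).comp (D.ev 1)
          (MvPolynomial.monomial (Cob.last 0 a) 1) := by
      intro w _
      rw [← HRing.map_of, hw, RingHom.comp_apply, ← HRing_map_congr' (toKR_descM u w),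
        HRing.map_comp]
      rfl
    rw [h1, h1]
    refine ringHom_monomial (fun m => ?_) _
    rw [RingHom.comp_apply, RingHom.comp_apply, ← ser_c, ← ser_c, h]
  have h2 := congrArg (inrM K D.R ≫ ·) key
  simpa only [inrM_descM] using h2

/-- the series of `(u, u)` is the identity -/
theorem ser_self (u : D.R ⟶ K) [IsMonHom u] : ser u u = 1 := by
  have h : ∀ i, (ser u u).c (i + 1) = 0 := by
    intro i
    have h1 : pairM u u = Am.map D.R (fun _ : Fin (1 + 1) => (0 : Fin (0 + 1))) ≫ amOne D.R ≫ u := by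
      symm
      apply eq_pairM
      · rw [← Category.assoc, Am.v_map, ← Category.assoc, v_amOne, Category.id_comp]
      · rw [← Category.assoc, Am.v_map, ← Category.assoc, v_amOne, Category.id_comp]
    rw [ser_c, HRing_map_congr' h1, HRing.map_comp, RingHom.comp_apply, D.ev_map]
    have h2 : Cob.map (N := Laz) (fun _ : Fin (1 + 1) => (0 : Fin (0 + 1)))
        (MvPolynomial.X ((0 : Fin 1), i)) = 0 := by
      rw [Cob.map, Cob.ev_X, Chain.res_g, mul_inv_cancel]
      exact InvSeries.c_one_succ i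
    rw [h2, map_zero, map_zero]
  refine InvSeries.ext_c fun n => ?_
  rcases n with _ | n
  · rw [InvSeries.c_zero_one]
    exact ser_strict u u
  · rw [h, InvSeries.c_one_succ]

/-- homogeneous elements of the homotopy ring -/
def IsHomog (K : T) [MonObj K] (n : ℤ) (x : HRing (stdEven T) K) : Prop :=
  ∃ a : (stdEven T).S n ⟶ K, x = HRing.of (stdEven T) K n a

theorem IsHomog.one : IsHomog K 0 1 := ⟨_, of_one.symm⟩

theorem IsHomog.mul {m n l : ℤ} {x y : HRing (stdEven T) K} (hx : IsHomog K m x)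
    (hy : IsHomog K n y) (h : m + n = l) : IsHomog K l (x * y) := by
  obtain ⟨a, rfl⟩ := hx
  obtain ⟨b, rfl⟩ := hy
  exact ⟨_, of_mul_of h a b⟩

theorem IsHomog.pow {m : ℤ} {x : HRing (stdEven T) K} (hx : IsHomog K m x) (n : ℕ) :
    IsHomog K (n * m) (x ^ n) := by
  induction n with
  | zero => simpa using IsHomog.one
  | succ n ih =>
    rw [pow_succ]
    exact ih.mul hx (by push_cast; ring)

theorem IsHomog.prod {ι : Type*} (s : Finset ι) (w : ι → ℤ) (x : ι → HRing (stdEven T) K)
    (h : ∀ i ∈ s, IsHomog K (w i) (x i)) : IsHomog K (∑ i ∈ s, w i) (∏ i ∈ s, x i) := by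
  classical
  induction s using Finset.induction_on with
  | empty => simpa using IsHomog.one
  | insert a s ha ih =>
    rw [Finset.prod_insert ha, Finset.sum_insert ha]
    exact (h a (Finset.mem_insert_self a s)).mul
      (ih fun i hi => h i (Finset.mem_insert_of_mem hi)) rfl

theorem degU_add (a b : ℕ →₀ ℕ) : Cob.degU (a + b) = Cob.degU a + Cob.degU b := by
  unfold Cob.degU
  rw [Finsupp.sum_add_index']
  · intro im
    simp
  · intro im e e'
    push_cast
    ring

/-- **Monoid maps out of `MU` with a prescribed strict series.** -/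
theorem exists_of_ser (hD : MUUniv e D) (u : D.R ⟶ K) [IsMonHom u]
    (c : ℕ → HRing (stdEven T) K) (hc : ∀ m : ℕ, IsHomog K ((m + 1 : ℕ) : ℤ) (c m)) :
    ∃ (u' : D.R ⟶ K) (_ : IsMonHom u'), ser u u' = strictMk c := by
  obtain ⟨b, hk, hw⟩ := D.exists_basis_of u hD
  -- the family of products
  have hz : ∀ a : ℕ →₀ ℕ, IsHomog K (b.k a) (a.prod fun m n => c m ^ n) := by
    intro a
    rw [hk]
    exact IsHomog.prod _ _ _ fun m _ => (hc m).pow _
  choose z hz using hz
  have hd : ∀ i j, b.k i + b.k j = b.k (i + j) := fun i j => by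
    rw [hk, hk, hk, degU_add]
  have hk0 : b.k 0 = 0 := by rw [hk]; simp [Cob.degU]
  have hl0 : Cob.last 0 (0 : ℕ →₀ ℕ) = 0 := Finsupp.mapDomain_zero
  have hl : ∀ i j, Cob.last 0 (i + j) = Cob.last 0 i + Cob.last 0 j := fun i j =>
    Finsupp.mapDomain_add
  obtain ⟨h1, h2, h3⟩ := isMonHom_blin b z 0 hk0
    (of_injective (by
      rw [of_cast, hw, hl0, MvPolynomial.monomial_zero', MvPolynomial.C_1, map_one, map_one]
      exact of_one.symm))
    (of_injective (by
      rw [of_cast, ← hz, Finsupp.prod_zero_index]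
      exact of_one.symm))
    (· + ·) hd
    (fun i j => of_injective (by
      rw [← of_mul_of, hw, hw, hw, hl, ← map_mul, ← map_mul, MvPolynomial.monomial_mul,
        _root_.one_mul]))
    (fun i j => of_injective (by
      rw [← of_mul_of, ← hz, ← hz, ← hz, Finsupp.prod_add_index']
      · intro m; rw [pow_zero]
      · intro m _ _; rw [pow_add]))
  refine ⟨inrM K D.R ≫ blin b z, inferInstance, ?_⟩
  have h4 : pairM u (inrM K D.R ≫ blin b z) = D.toKR u ≫ blin b z := by
    symm
    apply eq_pairM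
    · rw [← Category.assoc, D.v_zero_toKR, Category.assoc, h2, Category.comp_id]
    · rw [← Category.assoc, D.v_one_toKR]
  refine InvSeries.ext_c fun n => ?_
  rcases n with _ | n
  · rw [c_zero_strictMk]
    exact ser_strict _ _
  · have h5 : Cob.last 0 (Finsupp.single n 1) = Finsupp.single ((0 : Fin 1), n) 1 := by
      rw [Cob.last, Finsupp.mapDomain_single]
      rfl
    have h6 : (MvPolynomial.X ((0 : Fin 1), n) : Cob Laz 1) =
        MvPolynomial.monomial (Cob.last 0 (Finsupp.single n 1)) 1 := by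
      rw [h5]
      rfl
    rw [ser_c, HRing_map_congr' h4, HRing.map_comp, RingHom.comp_apply, h6, ← hw, HRing.map_of, h3,
      ← hz, Finsupp.prod_single_index (h := fun m n => c m ^ n) (pow_zero (c n)), pow_one,
      c_succ_strictMk]

end

end Vale.Agent.P257.H80
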