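import Vale.Agent.P257.H80.RegB
import Vale.Agent.P257.H604.Loc

/-!
# P257 (helper80): the Brown-Peterson monoid, library level

* `exists_bp` : existence;
* `IsBPMon.reg` : `p, v_1, v_2, …` is a regular sequence on the homotopy of every Brown-Peterson
  monoid (`p` odd).
-/

open CategoryTheory MonoidalCategory MonObj Limits Pretriangulated

set_option linter.unusedSectionVars false

universe u

namespace Vale.Agent.P257.H80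

open Vale.Agent.P251 Vale.Agent.P251.S Vale.Agent.P251.T Vale.Agent.P251.M Vale.Agent.P251.F
  Vale.Agent.P251.I EvenSpheres Vale.Agent.P257.H702

variable {𝒯 : Type u} [Category.{0} 𝒯] [Preadditive 𝒯] [HasZeroObject 𝒯]
    [HasShift 𝒯 ℤ] [∀ n : ℤ, (shiftFunctor 𝒯 n).Additive] [Pretriangulated 𝒯] [IsTriangulated 𝒯]
    [MonoidalCategory 𝒯] [SymmetricCategory 𝒯] [TensorTriangulated 𝒯] [MonoidalClosed 𝒯]
    [HasCoproducts.{0} 𝒯] [HasProducts.{0} 𝒯] [StableCat 𝒯]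
  {F : SpaceFunctor 𝒯} {e : F.S.obj CCF ≅ (stdEven 𝒯).L} {D : MUData 𝒯}
  {p : ℕ} [hp : Fact p.Prime]

omit hp in
theorem IsPLoc.isLoc {X Y : 𝒯} {l : X ⟶ Y} (h : H604.IsPLoc p l) : IsLoc p l := ⟨h.loc, h.bij⟩

omit hp in
theorem IsPLoc.isLocPi {X Y : 𝒯} {l : X ⟶ Y} (h : H604.IsPLoc p l) : IsLocPi p l :=
  ⟨fun n y => h.frac _ (H604.cptS n) y, fun n x hx => h.tor _ (H604.cptS n) x hx⟩

/-- **Existence of the Brown-Peterson monoid**: a retract of the `p`-localization of `MU`. -/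
theorem exists_bp (hD : MUUniv e D) :
    ∃ (Rp : 𝒯) (_ : MonObj Rp) (_ : IsCommMonObj Rp) (l : D.R ⟶ Rp) (_ : IsMonHom l)
      (B : 𝒯) (_ : MonObj B) (_ : IsCommMonObj B) (s : B ⟶ Rp) (r : Rp ⟶ B) (_ : IsMonHom s)
      (_ : IsMonHom r), H604.IsPLoc p l ∧ s ≫ r = 𝟙 B ∧ IsBPMon p (l ≫ r) := by
  obtain ⟨Rp, i1, i2, l, i3, hl⟩ := H604.exists_isPLoc hp.out D.R
  obtain ⟨B, i4, i5, s, r, i6, i7, h1, h2⟩ := exists_bpMon (p := p) hD (IsPLoc.isLoc hl)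
  exact ⟨Rp, i1, i2, l, i3, B, i4, i5, s, r, i6, i7, hl, h1, h2⟩

/-- **Uniqueness.** -/
theorem IsBPMon.exists_iso {B B' : 𝒯} [MonObj B] [IsCommMonObj B] [MonObj B'] [IsCommMonObj B']
    {b : D.R ⟶ B} [IsMonHom b] {b' : D.R ⟶ B'} [IsMonHom b'] (h : IsBPMon p b)
    (h' : IsBPMon p b') : ∃ (f : B ⟶ B') (g : B' ⟶ B) (_ : IsMonHom f) (_ : IsMonHom g),
      f ≫ g = 𝟙 B ∧ g ≫ f = 𝟙 B' ∧ b ≫ f = b' := by
  obtain ⟨φ, hφ⟩ := h.law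
  obtain ⟨φ', hφ'⟩ := h'.law
  obtain ⟨f, i1, hf⟩ := h.exists_map B' h'.loc b' φ' hφ'
  obtain ⟨g, i2, hg⟩ := h'.exists_map B h.loc b φ hφ
  refine ⟨f, g, i1, i2, ?_, ?_, hf⟩
  · apply h.uniq B h.loc
    rw [← Category.assoc, hf, hg, Category.comp_id]
  · apply h'.uniq B' h'.loc
    rw [← Category.assoc, hg, hf, Category.comp_id]

/-- **Regularity on the homotopy of the Brown-Peterson monoid.** -/
theorem IsBPMon.reg (hD : MUUniv e D) (h2 : p ≠ 2) {C : 𝒯} {i : 𝟙_ 𝒯 ⟶ C}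
    {δ : C ⟶ (𝟙_ 𝒯)⟦(1 : ℤ)⟧} (hC : Triangle.mk ((p : ℤ) • 𝟙 (𝟙_ 𝒯)) i δ ∈ distTriang 𝒯)
    {B : 𝒯} [MonObj B] [IsCommMonObj B] {b : D.R ⟶ B} [IsMonHom b] (hb : IsBPMon p b) (h : ℕ) :
    Reg (vK D p b) h := by
  obtain ⟨Rp, i1, i2, l, i3, B', i4, i5, s, r, i6, i7, hl, hsr, hb'⟩ := exists_bp (p := p) hD
  obtain ⟨f, g, i8, i9, hfg, hgf, hf⟩ := hb.exists_iso hb'
  have h1 : Reg (vK D p l) h := reg_MUp h2 hC (IsPLoc.isLocPi hl) hl.loc h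
  refine reg_retract (f ≫ s) (r ≫ g) ?_ (x := vK D p b) ?_
  · rw [Category.assoc, reassoc_of% hsr, hfg]
  · have h3 : (fun i => vK D p b i ≫ f ≫ s) = vK D p (b ≫ f ≫ s) := by
      funext i
      rw [vK, vK, Category.assoc]
    rw [h3]
    exact reg_change _ h1

end Vale.Agent.P257.H80
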