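import Vale.Agent.P257.H80.BPLib
import Vale.Agent.P257.H80.HazIff
import Vale.Agent.P257.H702.OrMap

/-!
# P257 (helper80): the Brown-Peterson spectrum of the statement layer

* `hom_homog` : the values of `Φ` on the variables are homogeneous when `lawOf u = (haz p).map Φ`;
* `isBPMon_of_univ` : a Brown-Peterson spectrum of the statement layer is a Brown-Peterson monoid.
-/

open CategoryTheory MonoidalCategory MonObj Limits Pretriangulated

set_option linter.unusedSectionVars false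

noncomputable section

namespace Vale.Agent.P257.H80

open Vale.Agent.P251 Vale.Agent.P251.S Vale.Agent.P251.T Vale.Agent.P251.M Vale.Agent.P251.F
  Vale.Agent.P251.I EvenSpheres Vale.Agent.P257.H702 Vale.Agent.P251.St

section lib

universe u

variable {𝒯 : Type u} [Category.{0} 𝒯] [Preadditive 𝒯] [HasZeroObject 𝒯]
    [HasShift 𝒯 ℤ] [∀ n : ℤ, (shiftFunctor 𝒯 n).Additive] [Pretriangulated 𝒯] [IsTriangulated 𝒯]
    [MonoidalCategory 𝒯] [SymmetricCategory 𝒯] [TensorTriangulated 𝒯] [MonoidalClosed 𝒯]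
    [HasCoproducts.{0} 𝒯] [HasProducts.{0} 𝒯] [StableCat 𝒯]
  {D : MUData 𝒯} {p : ℕ} [hp : Fact p.Prime]

/-- the values on the variables of the classifying map of a Hazewinkel law are homogeneous -/
theorem hom_homog {K : 𝒯} [MonObj K] [IsCommMonObj K] (hK : LocO p K) {u : D.R ⟶ K} [IsMonHom u]
    {φ : MvPolynomial ℕ ℤ →+* HRing (stdEven 𝒯) K} (h : lawOf u = (haz p).map φ) (i : ℕ) :
    IsHomog K ((p ^ (i + 1) - 1 : ℕ) : ℤ) (φ (MvPolynomial.X i)) := by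
  have h1 : φ = vS p (typ p (pLoc_of_locO hK) (lawOf u)) := by
    rw [h, typ_haz, vS_seqV]
  have h2 := isHomog_typ (p := p) (pLoc_of_locO hK) u (p ^ (i + 1) - 2)
  rw [h1, vS_X]
  have h3 : 2 ≤ p ^ (i + 1) := two_le_pow hp.out (Nat.succ_ne_zero i)
  have h4 : ((p ^ (i + 1) - 1 : ℕ) : ℤ) = ((p ^ (i + 1) - 2 : ℕ) : ℤ) + 1 := by
    omega
  rw [h4]
  exact h2

end lib

variable {T : SHCat} {S : Susp T} {p : ℕ}

theorem locO_iff {X : T.C} : P257.St.PLocal p X ↔ LocO p X := Iff.rfl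

theorem isRingMap_iff {R R' : RingSp T} (f : R.obj ⟶ R'.obj) :
    P257.St.IsRingMap f ↔ IsMonHom f :=
  ⟨fun h => ⟨h.1, h.2⟩, fun h => ⟨h.one_hom, h.mul_hom⟩⟩

/-- the data extracted from a `p`-typical orientation -/
def PTypOut (S : Susp T) (p : ℕ) [Fact p.Prime] : Prop :=
  ∀ (R : RingSp T) (o : St.Oriented S R)
    (φ : ∀ n : ℕ, P257.St.VPoly p n →+ SHCat.Hom (S.obj (Cn n)) R.obj),
    P257.St.IsPTyp p o φ → ∃ Φ : MvPolynomial ℕ ℤ →+* HRing (stdEven T.C) R.obj,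
      (∀ (n : ℕ) (x : P257.St.VPoly p n),
        Φ x = HRing.of (stdEven T.C) R.obj n ((isoE S n).inv ≫ φ n x)) ∧
      lawS o = (haz p).map Φ

/-- a `p`-typical orientation from its classifying map -/
def PTypIn (S : Susp T) (p : ℕ) [Fact p.Prime] : Prop :=
  ∀ (R : RingSp T) (o : St.Oriented S R) (Φ : MvPolynomial ℕ ℤ →+* HRing (stdEven T.C) R.obj),
    P257.St.PLocal p R.obj →
    (∀ i, ∃ a : (stdEven T.C).S ((p ^ (i + 1) - 1 : ℕ) : ℤ) ⟶ R.obj,
      Φ (MvPolynomial.X i) = HRing.of (stdEven T.C) R.obj _ a) →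
    lawS o = (haz p).map Φ →
    ∃ φ : ∀ n : ℕ, P257.St.VPoly p n →+ SHCat.Hom (S.obj (Cn n)) R.obj,
      P257.St.IsPTyp p o φ

section

variable [hp : Fact p.Prime] (H1 : PTypOut S p)
  {D : MUData T.C} (hD : MUUniv (M.lineIso S.toSpaceFunctor) D)
  (U : MUFam (M.lineIso S.toSpaceFunctor) D)

include H1 in
theorem exists_unique_map {B : RingSp T} {o : St.Oriented S B} {b : D.R ⟶ B.obj} [IsMonHom b]
    (ho : pushW U.W b = famS o) (hb : IsBPMon p b) (R : RingSp T) (o' : St.Oriented S R)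
    (φ' : ∀ n : ℕ, P257.St.VPoly p n →+ SHCat.Hom (S.obj (Cn n)) R.obj)
    (h' : P257.St.IsPTyp p o' φ') :
    ∃! f : SHCat.Hom B.obj R.obj, P257.St.IsRingMap f ∧ P257.St.Carries f o o' := by
  obtain ⟨Φ', -, hΦ'⟩ := H1 R o' φ' h'
  obtain ⟨u', hu', h⟩ := U.exists_mapS o'
  have h1 : lawOf u' = (haz p).map Φ' := by rw [← hΦ', U.lawS_eq h]; rfl
  obtain ⟨f, hf, hbf⟩ := hb.exists_map R.obj h'.isLocal u' Φ' h1
  refine ⟨f, ⟨(isRingMap_iff f).2 hf, (U.orMap_iff ho h f).2 hbf⟩, ?_⟩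
  rintro g ⟨hg1, hg2⟩
  have hg := (isRingMap_iff g).1 hg1
  exact hb.uniq R.obj h'.isLocal g f (((U.orMap_iff ho h g).1 hg2).trans hbf.symm)

include H1 hD U in
/-- **Existence of the Brown-Peterson spectrum.** -/
theorem exists_isBrownPeterson_of (H2 : PTypIn S p) : ∃ (B : RingSp T) (o : St.Oriented S B)
    (φ : ∀ n : ℕ, P257.St.VPoly p n →+ SHCat.Hom (S.obj (Cn n)) B.obj),
    P257.St.IsBrownPeterson p o φ := by
  obtain ⟨Rp, i1, i2, l, i3, B, i4, i5, s, r, i6, i7, hl, hsr, hb⟩ := exists_bp (p := p) hD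
  obtain ⟨o, ho⟩ := U.exists_orient (R := @RingSp.mk T B i4 i5) (l ≫ r)
  obtain ⟨Φ, hΦ⟩ := hb.law
  obtain ⟨φ, hφ⟩ := H2 (@RingSp.mk T B i4 i5) o Φ hb.loc (fun i => by
    obtain ⟨a, ha⟩ := hom_homog hb.loc hΦ i
    exact ⟨a, ha⟩) (by rw [U.lawS_eq ho]; exact hΦ)
  exact ⟨_, o, φ, hφ, exists_unique_map H1 U ho hb⟩

include H1 hD in
/-- the classifying map of a Brown-Peterson spectrum is a Brown-Peterson monoid -/
theorem isBPMon_of_isBrownPeterson (H2 : PTypIn S p) {B : RingSp T} {o : St.Oriented S B}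
    {φ : ∀ n : ℕ, P257.St.VPoly p n →+ SHCat.Hom (S.obj (Cn n)) B.obj}
    (h : P257.St.IsBrownPeterson p o φ) {b : D.R ⟶ B.obj} [IsMonHom b]
    (ho : pushW U.W b = famS o) : IsBPMon p b := by
  obtain ⟨Rp, i1, i2, l, i3, B', i4, i5, s, r, i6, i7, hl, hsr, hb⟩ := exists_bp (p := p) hD
  obtain ⟨o', ho'⟩ := U.exists_orient (R := @RingSp.mk T B' i4 i5) (l ≫ r)
  obtain ⟨Φ', hΦ'⟩ := hb.law
  obtain ⟨φ', hφ'⟩ := H2 (@RingSp.mk T B' i4 i5) o' Φ' hb.loc (fun i => by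
    obtain ⟨a, ha⟩ := hom_homog hb.loc hΦ' i
    exact ⟨a, ha⟩) (by rw [U.lawS_eq ho']; exact hΦ')
  obtain ⟨Φ, -, hΦ⟩ := H1 B o φ h.typ
  have h1 : lawOf b = (haz p).map Φ := by rw [← hΦ, U.lawS_eq ho]; rfl
  -- the two maps
  obtain ⟨f, hf, hbf⟩ := hb.exists_map B.obj h.typ.isLocal b Φ h1
  obtain ⟨g, ⟨hg1, hg2⟩, -⟩ := h.univ (@RingSp.mk T B' i4 i5) o' φ' hφ'
  have hg := (isRingMap_iff g).1 hg1
  have hbg : b ≫ g = l ≫ r := (U.orMap_iff ho ho' g).1 hg2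
  have hfg : f ≫ g = 𝟙 B' := by
    apply hb.uniq B' hb.loc
    rw [← Category.assoc, hbf, Category.comp_id]
    exact hbg
  have hgf : g ≫ f = 𝟙 B.obj := by
    refine (h.univ B o φ h.typ).unique ⟨(isRingMap_iff _).2 inferInstance, ?_⟩
      ⟨(isRingMap_iff _).2 inferInstance, ?_⟩
    · exact (U.orMap_iff ho ho (g ≫ f)).2 (by
        rw [← Category.assoc, hbg]
        exact hbf)
    · exact (U.orMap_iff ho ho (𝟙 B.obj)).2 (Category.comp_id _)
  refine ⟨h.typ.isLocal, ⟨Φ, h1⟩, ?_, ?_⟩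
  · intro K _ _ hK u _ φ hφ
    obtain ⟨f0, i8, h0⟩ := hb.exists_map K hK u φ hφ
    exact ⟨g ≫ f0, inferInstance, by rw [← Category.assoc, hbg]; exact h0⟩
  · intro K hK x y hxy
    have h2 : f ≫ x = f ≫ y := by
      apply hb.uniq K hK
      rw [← Category.assoc, ← Category.assoc, hbf, hxy]
    rw [← Category.id_comp x, ← Category.id_comp y, ← hgf, Category.assoc, Category.assoc, h2]

end

end Vale.Agent.P257.H80
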