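import Vale.Agent.P251.F.VTwist

/-!
# P257: comparison of formal group laws in the lowest degree in which they differ
-/

namespace Vale.Agent.P257.H80

open MvPowerSeries Finsupp Vale.Agent.P217 Vale.Agent.P251.F

variable {B : Type*} [CommRing B]

/-- linear combination of the coefficients of degree `n + 2`, as in the definition of `xC` -/
theorem xC_sub_eq (F G : Law B) (n : ℕ) : xC F n - xC G n =
    ∑ i ∈ Finset.Ioo 0 (n + 2), lz n i • coeff (e2 i (n + 2 - i)) (F.ps - G.ps) := by
  rw [xC, xC, ← Finset.sum_sub_distrib]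
  refine Finset.sum_congr rfl fun i _ => ?_
  rw [map_sub, smul_sub]

/-- two laws which agree in degrees `< n + 2` differ by a multiple of `C_{n+2}` -/
theorem law_compare {F G : Law B} {n : ℕ} (h : F.ps - G.ps ∈ ordI (Fin 2) B (n + 2)) :
    F.ps - G.ps - C (xC F n - xC G n) * CPS B (n + 2) ∈ ordI (Fin 2) B (n + 3) := by
  obtain ⟨m, hm⟩ := exists_compare F.toFG G.toFG (by omega) h
  have h1 : xC F n - xC G n = m := by
    rw [xC_sub_eq]
    have h2 : ∀ i ∈ Finset.Ioo 0 (n + 2), lz n i • coeff (e2 i (n + 2 - i)) (F.ps - G.ps) =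
        (lz n i * (cC (n + 2) i : ℤ)) • m := by
      intro i hi
      rw [Finset.mem_Ioo] at hi
      have h3 := hm (e2 i (n + 2 - i)) (by rw [degree_e2]; omega)
      rw [map_sub, sub_eq_zero, coeff_C_mul, coeff_CPS _ _ _ (by omega) (by omega) (by omega)] at h3
      rw [mul_smul]
      congr 1
      rw [natCast_zsmul, nsmul_eq_mul, mul_comm]
      exact h3
    rw [Finset.sum_congr rfl h2, ← Finset.sum_smul, lz_spec, one_smul]
  rw [h1]
  exact hm

theorem law_sub_mem_succ {F G : Law B} {n : ℕ} (h : F.ps - G.ps ∈ ordI (Fin 2) B (n + 2))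
    (hx : xC F n = xC G n) : F.ps - G.ps ∈ ordI (Fin 2) B (n + 3) := by
  have h1 := law_compare h
  rwa [hx, sub_self, map_zero, zero_mul, sub_zero] at h1

theorem law_sub_mem_of_xC {F G : Law B} {n : ℕ} (h : ∀ k < n, xC F k = xC G k) :
    F.ps - G.ps ∈ ordI (Fin 2) B (n + 2) := by
  induction n with
  | zero =>
    have h1 : F.ps - G.ps = (F.ps - (X 0 + X 1)) - (G.ps - (X 0 + X 1)) := by ring
    rw [h1]
    exact Ideal.sub_mem _ (isLaw_formalGroup F.toFG) (isLaw_formalGroup G.toFG)
  | succ n ih =>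
    exact law_sub_mem_succ (ih fun k hk => h k (by omega)) (h n (by omega))

theorem xC_eq_of_sub_mem {F G : Law B} {n k : ℕ} (h : F.ps - G.ps ∈ ordI (Fin 2) B n)
    (hk : k + 2 < n) : xC F k = xC G k := by
  rw [← sub_eq_zero, xC_sub_eq]
  refine Finset.sum_eq_zero fun i hi => ?_
  rw [Finset.mem_Ioo] at hi
  rw [h (e2 i (k + 2 - i)) (by rw [degree_e2]; omega), smul_zero]

/-- the effect of a change of coordinates `x + b x^{n+2} + …` -/
theorem smul_sub_mem {f : InvSeries B} {b : B} {n : ℕ}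
    (hf : f.val - (PowerSeries.X + PowerSeries.C b * PowerSeries.X ^ (n + 2)) ∈
      ordI Unit B (n + 3)) (F : Law B) :
    (f • F).ps - F.ps ∈ ordI (Fin 2) B (n + 2) ∧ xC (f • F) n = xC F n + dC (n + 2) • b := by
  have h4 := change_of_variable (isLaw_formalGroup F.toFG)
    (isLaw_formalGroup (f • F).toFG) (by omega) hf (InvSeries.isHom_smul f F).2
  have h1 : ((X 0 + X 1 : MvPowerSeries (Fin 2) B) ^ (n + 2) - X 0 ^ (n + 2) -
      X 1 ^ (n + 2)) ∈ ordI (Fin 2) B (n + 2) := by
    rw [← dC_smul_CPS (by omega)]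
    exact Ideal.mul_mem_left _ _ (CPS_mem _)
  have h2 : (f • F).ps - F.ps ∈ ordI (Fin 2) B (n + 2) := by
    have h3 := Ideal.add_mem _ (ordI_anti (by omega) h4)
      (Ideal.mul_mem_left _ (C b) h1)
    convert h3 using 1
    ring
  refine ⟨h2, ?_⟩
  have h5 := law_compare h2
  have h6 := Ideal.sub_mem _ h5 h4
  have h7 := h6 (e2 1 (n + 1)) (by rw [degree_e2]; omega)
  rw [← dC_smul_CPS (by omega)] at h7
  have h8 : xC (f • F) n - xC F n = dC (n + 2) • b := by
    rw [xC_sub_eq]
    have h9 : ∀ i ∈ Finset.Ioo 0 (n + 2), lz n i • coeff (e2 i (n + 2 - i)) ((f • F).ps - F.ps) =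
        (lz n i * (cC (n + 2) i : ℤ)) • (dC (n + 2) • b) := by
      intro i hi
      rw [Finset.mem_Ioo] at hi
      have h3 := h4 (e2 i (n + 2 - i)) (by rw [degree_e2]; omega)
      rw [← dC_smul_CPS (by omega), map_sub, sub_eq_zero, coeff_C_mul,
        ← map_natCast (MvPowerSeries.C (σ := Fin 2) (R := B)), coeff_C_mul,
        coeff_CPS _ _ _ (by omega) (by omega) (by omega)] at h3
      rw [mul_smul]
      congr 1
      rw [natCast_zsmul, nsmul_eq_mul, nsmul_eq_mul]
      rw [h3]
      ring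
    rw [Finset.sum_congr rfl h9, ← Finset.sum_smul, lz_spec, one_smul]
  rw [← h8]
  ring

/-- the inverses of two series which agree up to `x^{n+1}` -/
theorem inv_c_sub {f g : InvSeries B} (hg : g ∈ strict B) {n : ℕ}
    (h : ∀ k ≤ n, f.c k = g.c k) :
    (∀ k ≤ n, (f⁻¹).c k = (g⁻¹).c k) ∧
      (f⁻¹).c (n + 1) - (g⁻¹).c (n + 1) = -(f.c (n + 1) - g.c (n + 1)) := by
  have h1 := mul_inv_sub_mem hg h
  set d := f.c (n + 1) - g.c (n + 1) with hd
  have h2 := inv_val_sub_mem h1
  -- `f⁻¹ = g⁻¹ * (f g⁻¹)⁻¹`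
  have h3 : f⁻¹ = g⁻¹ * (f * g⁻¹)⁻¹ := by group
  set k := (f * g⁻¹)⁻¹ with hk
  have h4 : (f⁻¹).val = PowerSeries.subst k.val (g⁻¹).val := by rw [h3]; rfl
  -- `g⁻¹ - X ∈ ordI 2`
  have h5 : (g⁻¹).val - PowerSeries.X ∈ ordI Unit B 2 := by
    rw [mem_ordI_unit]
    intro k hk
    rw [map_sub]
    rcases k with _ | k
    · rw [PowerSeries.coeff_zero_eq_constantCoeff_apply, (g⁻¹).cc,
        PowerSeries.coeff_zero_eq_constantCoeff_apply, PowerSeries.constantCoeff_X, sub_zero]
    · obtain rfl : k = 0 := by omega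
      have h6 := (strict B).inv_mem hg
      rw [mem_strict] at h6
      change (g⁻¹).c 0 - PowerSeries.coeff 1 PowerSeries.X = 0
      rw [h6, PowerSeries.coeff_one_X, sub_self]
  have h6 : k.val - PowerSeries.X ∈ ordI Unit B (n + 2) := by
    have h7 : k.val - PowerSeries.X = (k.val - (PowerSeries.X - PowerSeries.C d *
        PowerSeries.X ^ (n + 2))) - PowerSeries.C d * PowerSeries.X ^ (n + 2) := by ring
    rw [h7]
    refine Ideal.sub_mem _ (ordI_anti (by omega) h2) (Ideal.mul_mem_left _ _ ?_)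
    have := ordI_pow (psX_mem (R := B)) (n + 2)
    exact this
  have h7 : PowerSeries.subst k.val ((g⁻¹).val - PowerSeries.X) -
      PowerSeries.subst (PowerSeries.X : PowerSeries B) ((g⁻¹).val - PowerSeries.X) ∈
        ordI Unit B (n + 1 + 2) :=
    subst_sub_subst_mem_ordI (σ := Unit) (a := fun _ => k.val)
      (b := fun _ => (PowerSeries.X : PowerSeries B)) (fun _ => k.val_mem) (fun _ => psX_mem)
      (fun _ => h6) h5
  rw [PowerSeries.subst_sub k.hs, PowerSeries.subst_X k.hs, PowerSeries.X_subst, ← h4] at h7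
  have h8 : (f⁻¹).val - (g⁻¹).val + PowerSeries.C d * PowerSeries.X ^ (n + 2) ∈
      ordI Unit B (n + 3) := by
    have h9 := Ideal.add_mem _ h7 h2
    convert h9 using 1
    ring
  rw [mem_ordI_unit] at h8
  constructor
  · intro j hj
    have h9 := h8 (j + 1) (by omega)
    rw [map_add, map_sub, PowerSeries.coeff_C_mul, PowerSeries.coeff_X_pow, if_neg (by omega),
      mul_zero, add_zero, sub_eq_zero] at h9
    exact h9
  · have h9 := h8 (n + 2) (by omega)
    rw [map_add, map_sub, PowerSeries.coeff_C_mul, PowerSeries.coeff_X_pow, if_pos rfl,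
      mul_one] at h9
    change (f⁻¹).c (n + 1) - (g⁻¹).c (n + 1) + d = 0 at h9
    linear_combination h9

/-- comparison of laws with logarithms -/
theorem log_compare {f g : InvSeries B} (hg : g ∈ strict B) {n : ℕ}
    (h : ∀ k ≤ n, f.c k = g.c k) (G : Law B) :
    (f⁻¹ • G).ps - (g⁻¹ • G).ps ∈ ordI (Fin 2) B (n + 2) ∧
      xC (f⁻¹ • G) n - xC (g⁻¹ • G) n = -(dC (n + 2) • (f.c (n + 1) - g.c (n + 1))) := by
  obtain ⟨h1, h2⟩ := inv_c_sub hg h
  have h3 := mul_inv_sub_mem ((strict B).inv_mem hg) h1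
  rw [h2] at h3
  have h4 := smul_sub_mem h3 (g⁻¹ • G)
  rw [← mul_smul, inv_mul_cancel_right] at h4
  refine ⟨h4.1, ?_⟩
  rw [h4.2, smul_neg]
  ring

/-- changing the series -/
theorem smul_compare {f g : InvSeries B} (hg : g ∈ strict B) {n : ℕ}
    (h : ∀ k ≤ n, f.c k = g.c k) (G : Law B) :
    (f • G).ps - (g • G).ps ∈ ordI (Fin 2) B (n + 2) ∧
      xC (f • G) n - xC (g • G) n = dC (n + 2) • (f.c (n + 1) - g.c (n + 1)) := by
  have h3 := mul_inv_sub_mem hg h
  have h4 := smul_sub_mem h3 (g • G)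
  rw [← mul_smul, inv_mul_cancel_right] at h4
  refine ⟨h4.1, ?_⟩
  rw [h4.2]
  ring

/-- A triangular map of sequences is a bijection. -/
theorem exists_unique_triangular (Φ : (ℕ → B) → ℕ → B) (u : ℕ → B) (hu : ∀ n, IsUnit (u n))
    (h : ∀ (n : ℕ) (c c' : ℕ → B), (∀ k < n, c k = c' k) → Φ c n - Φ c' n = u n * (c n - c' n)) :
    ∃! c : ℕ → B, ∀ n, Φ c n = 0 := by
  classical
  let v : ℕ → B := fun n => (hu n).unit⁻¹.val
  have hv : ∀ n, u n * v n = 1 := fun n => (hu n).mul_val_inv
  let step : (n : ℕ) → ((m : ℕ) → m < n → B) → B := fun n c =>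
    -(v n * Φ (fun k => if hk : k < n then c k hk else 0) n)
  let c : ℕ → B := fun n => Nat.strongRecOn n step
  have hc : ∀ n, c n = -(v n * Φ (fun k => if k < n then c k else 0) n) := by
    intro n
    have h1 : c n = step n (fun m _ => c m) := Nat.strongRecOn_eq (motive := fun _ => B) step n
    rw [h1]
    simp only [step]
    congr 3
  refine ⟨c, fun n => ?_, fun c' hc' => ?_⟩
  · have h1 := h n c (fun k => if k < n then c k else 0) (fun k hk => (if_pos hk).symm)
    rw [if_neg (lt_irrefl n), sub_zero] at h1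
    have h2 := hc n
    have h3 : Φ c n = Φ (fun k => if k < n then c k else 0) n + u n * c n := by
      linear_combination h1
    rw [h3, h2]
    linear_combination (-Φ (fun k => if k < n then c k else 0) n) * hv n
  · funext n
    induction n using Nat.strong_induction_on with
    | _ n ih =>
      have h1 := h n c' c fun k hk => ih k hk
      have h0 : Φ c n = 0 := by
        have h1 := h n c (fun k => if k < n then c k else 0) (fun k hk => (if_pos hk).symm)
        rw [if_neg (lt_irrefl n), sub_zero] at h1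
        have h2 := hc n
        have h3 : Φ c n = Φ (fun k => if k < n then c k else 0) n + u n * c n := by
          linear_combination h1
        rw [h3, h2]
        linear_combination (-Φ (fun k => if k < n then c k else 0) n) * hv n
      rw [hc' n, h0, sub_zero] at h1
      have h2 := (hu n).mul_right_eq_zero.1 h1.symm
      exact sub_eq_zero.1 h2

end Vale.Agent.P257.H80
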