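import Vale.Agent.P257.H702.HasV
import Vale.Agent.P257.Main.Glue

/-!
# P257 (helper80): `V(4)`, with the existence of the Brown-Peterson spectrum, from its packages
-/

open CategoryTheory MonoidalCategory Limits Pretriangulated MonObj

noncomputable section

namespace Vale.Agent.P257.H80

open Vale.Agent.P251 Vale.Agent.P251.T Vale.Agent.P251.F Vale.Agent.P251.I
  Vale.Agent.P251.M Vale.Agent.P257.H314 Vale.Agent.P257.H712 Vale.Agent.P257.H545
open Vale.Agent.P251.S hiding IC

/-- **The main theorem from its packages**, in both forms. -/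
theorem hasV_four_of {T : P251.St.SHCat} (S : P251.St.Susp T) {p : ℕ}
    (hp : p.Prime) (h11 : 11 ≤ p) (hF : ∀ [Fact p.Prime], FactsP p)
    (hII : Main.TodaInput.{0, 1} p) (hS : Main.StepInput.{0, 1} p) :
    P257.St.HasV S p 4 ∧ P257.St.SmithTodaExists S p 4 := by
  have : Fact p.Prime := ⟨hp⟩
  obtain ⟨D, hD, ⟨W⟩, o, ho⟩ := exists_muAll S.toSpaceFunctor (M.lineIso S.toSpaceFunctor)
  obtain ⟨U⟩ := exists_unitCof D.R
  obtain ⟨C, iC, δ, hC⟩ := distinguished_cocone_triangle ((p : ℤ) • 𝟙 (𝟙_ T.C))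
  obtain ⟨V, i, hV⟩ := exists_V4P U h11 hC hF (hII T.C S.toSpaceFunctor D o ho U)
    (hS T.C D U C iC)
  exact ⟨H702.hasV_of_isST (by omega) hD W hV, H702.smithTodaExists_of_isST hp hD hV⟩

end Vale.Agent.P257.H80
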