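import Mathlib.RingTheory.PowerSeries.Basic
import Mathlib.Algebra.MvPolynomial.Basic
import Mathlib.Data.Nat.Log

/-!
# P257, statement layer: Hazewinkel's logarithm

The variable `X i` of `MvPolynomial ℕ ℚ` is `v_{i+1}`.
-/

namespace Vale.Agent.P257.H80

/-- The coefficients `ℓ_n` of Hazewinkel's logarithm: `ℓ_0 = 1` and
`p ℓ_n = ∑_{i < n} ℓ_i v_{n-i}^{p^i}`. -/
noncomputable def ell (p : ℕ) : ℕ → MvPolynomial ℕ ℚ
  | 0 => 1
  | n + 1 => MvPolynomial.C (1 / (p : ℚ)) *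
      ∑ i : Fin (n + 1), ell p i * MvPolynomial.X (n - i) ^ p ^ (i : ℕ)

/-- Hazewinkel's logarithm `∑ ℓ_i x^{p^i}`. -/
noncomputable def hazLog (p : ℕ) : PowerSeries (MvPolynomial ℕ ℚ) :=
  PowerSeries.mk fun m => if m = p ^ Nat.log p m then ell p (Nat.log p m) else 0

end Vale.Agent.P257.H80
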