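import Vale.Agent.P257.H80.Cmp
import Vale.Agent.P257.H80.HazLog

/-!
# P257: every law over a `p`-local ring is canonically isomorphic to a Hazewinkel law

For a law `F` over a ring `B` in which all integers prime to `p` are invertible there is exactly
one sequence `c = typ F : ℕ → B` such that
`strictMk (bS p c) • F = (haz p).map (vS p c)`, where `vS p c` maps `v_{k+1}` to `c (p^{k+1} - 2)`
and `bS p c` is `c` off the indices `p^k - 2`.
-/

namespace Vale.Agent.P257.H80

open MvPowerSeries Finsupp Vale.Agent.P217 Vale.Agent.P251.F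

section ell

variable (p : ℕ) [hp : Fact p.Prime] {τ : Type*}

omit hp in
theorem rename_ell {σ σ' : ℕ → τ} {k : ℕ} (h : ∀ j < k, σ j = σ' j) (m : ℕ) (hm : m ≤ k) :
    MvPolynomial.rename σ (ell p m) = MvPolynomial.rename σ' (ell p m) := by
  induction m using Nat.strong_induction_on with
  | _ m ih =>
    rcases m with _ | m
    · rw [ell_zero, map_one, map_one]
    · rw [ell_succ, map_mul, map_mul, map_sum, map_sum, MvPolynomial.rename_C,
        MvPolynomial.rename_C]
      congr 1
      refine Finset.sum_congr rfl fun i hi => ?_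
      rw [Finset.mem_range] at hi
      rw [map_mul, map_mul, map_pow, map_pow, MvPolynomial.rename_X, MvPolynomial.rename_X,
        ih i (by omega) (by omega), h (m - i) (by omega)]

omit hp in
theorem rename_ell_succ {σ σ' : ℕ → τ} {k : ℕ} (h : ∀ j < k, σ j = σ' j) :
    MvPolynomial.rename σ (ell p (k + 1)) - MvPolynomial.rename σ' (ell p (k + 1)) =
      MvPolynomial.C (1 / (p : ℚ)) * (MvPolynomial.X (σ k) - MvPolynomial.X (σ' k)) := by
  rw [ell_succ, map_mul, map_mul, map_sum, map_sum, MvPolynomial.rename_C, MvPolynomial.rename_C,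
    ← mul_sub]
  congr 1
  rw [Finset.sum_range_succ', Finset.sum_range_succ']
  have h1 : ∀ i ∈ Finset.range k, MvPolynomial.rename σ (ell p (i + 1) *
      (MvPolynomial.X (k - (i + 1)) : MvPolynomial ℕ ℚ) ^ p ^ (i + 1)) =
      MvPolynomial.rename σ' (ell p (i + 1) *
        (MvPolynomial.X (k - (i + 1)) : MvPolynomial ℕ ℚ) ^ p ^ (i + 1)) := by
    intro i hi
    rw [Finset.mem_range] at hi
    rw [map_mul, map_mul, map_pow, map_pow, MvPolynomial.rename_X, MvPolynomial.rename_X,
      rename_ell p h (i + 1) (by omega), h (k - (i + 1)) (by omega)]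
  rw [Finset.sum_congr rfl h1, ell_zero]
  simp

theorem hazInv_c (n : ℕ) : (hazInv p).c n = PowerSeries.coeff (n + 1) (hazLog p) := rfl

theorem hazInv_mem : hazInv p ∈ strict _ := hazLog_one p

end ell

section compare

variable (p : ℕ) [hp : Fact p.Prime]

/-- Two specialisations of Hazewinkel's law, the universal case. -/
theorem haz_compare_univ {τ : Type*} {σ σ' : ℕ → τ} {k : ℕ} (h : ∀ j < k, σ j = σ' j) :
    ((haz p).map (MvPolynomial.rename σ : MvPolynomial ℕ ℤ →ₐ[ℤ] MvPolynomial τ ℤ).toRingHom).ps -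
      ((haz p).map (MvPolynomial.rename σ' : MvPolynomial ℕ ℤ →ₐ[ℤ] MvPolynomial τ ℤ).toRingHom).ps
        ∈ ordI (Fin 2) _ (p ^ (k + 1)) ∧
    xC ((haz p).map
        (MvPolynomial.rename σ : MvPolynomial ℕ ℤ →ₐ[ℤ] MvPolynomial τ ℤ).toRingHom)
        (p ^ (k + 1) - 2) -
      xC ((haz p).map (MvPolynomial.rename σ' : MvPolynomial ℕ ℤ →ₐ[ℤ] MvPolynomial τ ℤ).toRingHom)
        (p ^ (k + 1) - 2) =
      -(MvPolynomial.X (σ k) - MvPolynomial.X (σ' k)) := by
  set ι : MvPolynomial τ ℤ →+* MvPolynomial τ ℚ := MvPolynomial.map (Int.castRingHom ℚ) with hι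
  have hinj : Function.Injective ι := MvPolynomial.map_injective _ Int.cast_injective
  obtain ⟨n, hn⟩ : ∃ n, n + 2 = p ^ (k + 1) :=
    ⟨p ^ (k + 1) - 2, Nat.sub_add_cancel (two_le_pow (k := k + 1) hp.out (Nat.succ_ne_zero k))⟩
  have e1 : ∀ ρ : ℕ → τ, (((haz p).map
      (MvPolynomial.rename ρ : MvPolynomial ℕ ℤ →ₐ[ℤ] MvPolynomial τ ℤ).toRingHom).map ι) =
      (InvSeries.map (MvPolynomial.rename ρ :
        MvPolynomial ℕ ℚ →ₐ[ℚ] MvPolynomial τ ℚ).toRingHom (hazInv p))⁻¹ • addLaw _ := by
    intro ρ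
    rw [Law.map_map]
    have h1 : ι.comp (MvPolynomial.rename ρ : MvPolynomial ℕ ℤ →ₐ[ℤ] MvPolynomial τ ℤ).toRingHom =
        (MvPolynomial.rename ρ :
        MvPolynomial ℕ ℚ →ₐ[ℚ] MvPolynomial τ ℚ).toRingHom.comp hzI := by
      apply MvPolynomial.ringHom_ext
      · intro r
        simp [hι]
      · intro i
        simp [hι]
    rw [h1, ← Law.map_map, haz_map, hazQ, InvSeries.map_smul, map_inv, map_addLaw]
  set f := InvSeries.map (MvPolynomial.rename σ :
        MvPolynomial ℕ ℚ →ₐ[ℚ] MvPolynomial τ ℚ).toRingHom (hazInv p) with hf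
  set g := InvSeries.map (MvPolynomial.rename σ' :
        MvPolynomial ℕ ℚ →ₐ[ℚ] MvPolynomial τ ℚ).toRingHom (hazInv p) with hg
  have hgs : g ∈ strict _ := map_mem_strict _ (hazInv_mem p)
  have hfg : ∀ j ≤ n, f.c j = g.c j := by
    intro j hj
    rw [hf, hg, InvSeries.c_map, InvSeries.c_map, hazInv_c]
    by_cases hm : ∃ m, j + 1 = p ^ m
    · obtain ⟨m, hm⟩ := hm
      rw [hm, hazLog_coeff_pow]
      refine rename_ell p h m ?_
      have h2 : p ^ m < p ^ (k + 1) := by omega
      have h3 := (Nat.pow_lt_pow_iff_right hp.out.one_lt).1 h2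
      omega
    · rw [hazLog_coeff_of_ne p fun m hm' => hm ⟨m, hm'⟩, map_zero, map_zero]
  have hc := log_compare hgs hfg (addLaw _)
  rw [hn] at hc
  have h4 : f.c (n + 1) - g.c (n + 1) =
      MvPolynomial.C (1 / (p : ℚ)) * (MvPolynomial.X (σ k) - MvPolynomial.X (σ' k)) := by
    rw [hf, hg, InvSeries.c_map, InvSeries.c_map, hazInv_c, show n + 1 + 1 = p ^ (k + 1) from hn,
      hazLog_coeff_pow]
    exact rename_ell_succ p h
  have hn' : p ^ (k + 1) - 2 = n := by omega
  rw [hn']
  constructor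
  · intro d hd
    apply hinj
    have h5 := hc.1 d hd
    rw [← e1 σ, ← e1 σ', Law.map_ps ι, Law.map_ps ι, ← map_sub, coeff_map] at h5
    rw [map_zero]
    exact h5
  · apply hinj
    rw [map_sub, map_xC, map_xC, e1, e1, hc.2, h4, dC_pow hp.out (Nat.succ_ne_zero k)]
    rw [map_neg, map_sub, hι, MvPolynomial.map_X, MvPolynomial.map_X]
    congr 1
    rw [nsmul_eq_mul, ← mul_assoc, ← map_natCast (MvPolynomial.C (σ := τ) (R := ℚ)), ← map_mul,
      mul_one_div_cancel (by exact_mod_cast hp.out.ne_zero), map_one, one_mul]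

variable {B : Type*} [CommRing B]

/-- **Two specialisations of Hazewinkel's law** which agree on `v_1, …, v_k`. -/
theorem haz_compare {φ φ' : MvPolynomial ℕ ℤ →+* B} {k : ℕ}
    (h : ∀ j < k, φ (MvPolynomial.X j) = φ' (MvPolynomial.X j)) :
    ((haz p).map φ).ps - ((haz p).map φ').ps ∈ ordI (Fin 2) B (p ^ (k + 1)) ∧
    xC ((haz p).map φ) (p ^ (k + 1) - 2) - xC ((haz p).map φ') (p ^ (k + 1) - 2) =
      -(φ (MvPolynomial.X k) - φ' (MvPolynomial.X k)) := by
  set σ : ℕ → ℕ ⊕ ℕ := Sum.inl with hσ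
  set σ' : ℕ → ℕ ⊕ ℕ := fun j => if j < k then Sum.inl j else Sum.inr j with hσ'
  have hu := haz_compare_univ p (σ := σ) (σ' := σ') (k := k) (fun j hj => (if_pos hj).symm)
  set θ : MvPolynomial (ℕ ⊕ ℕ) ℤ →+* B := MvPolynomial.eval₂Hom (Int.castRingHom B)
    (Sum.elim (fun j => φ (MvPolynomial.X j)) fun j => φ' (MvPolynomial.X j)) with hθ
  have e1 : θ.comp (MvPolynomial.rename σ :
      MvPolynomial ℕ ℤ →ₐ[ℤ] MvPolynomial (ℕ ⊕ ℕ) ℤ).toRingHom = φ := by
    apply MvPolynomial.ringHom_ext
    · intro r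
      simp [hθ]
    · intro i
      simp [hθ, hσ]
  have e2 : θ.comp (MvPolynomial.rename σ' :
      MvPolynomial ℕ ℤ →ₐ[ℤ] MvPolynomial (ℕ ⊕ ℕ) ℤ).toRingHom = φ' := by
    apply MvPolynomial.ringHom_ext
    · intro r
      simp [hθ]
    · intro i
      by_cases hi : i < k
      · simp [hθ, hσ', hi, h i hi]
      · simp [hθ, hσ', hi]
  constructor
  · have h1 := ordI_map θ hu.1
    rw [map_sub, ← Law.map_ps, ← Law.map_ps, Law.map_map, Law.map_map, e1, e2] at h1
    exact h1
  · have h1 := congrArg θ hu.2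
    rw [map_sub, map_xC, map_xC, Law.map_map, Law.map_map, e1, e2, map_neg, map_sub] at h1
    rw [h1]
    congr 1
    simp [hθ, hσ, hσ']

end compare

/-! ### The canonical isomorphism -/

/-- all integers prime to `p` are invertible in `B` -/
def PLoc (p : ℕ) (B : Type*) [CommRing B] : Prop := ∀ m : ℕ, ¬ p ∣ m → IsUnit (m : B)

theorem PLoc.map {p : ℕ} {A B : Type*} [CommRing A] [CommRing B] (h : PLoc p A) (φ : A →+* B) :
    PLoc p B := fun m hm => by
  have := (h m hm).map φ
  rwa [map_natCast] at this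

theorem isUnit_dC {p : ℕ} {B : Type*} [CommRing B] (hp : p.Prime) (hB : PLoc p B) {n : ℕ}
    (hn : ¬ ∃ k, n + 2 = p ^ k) : IsUnit ((dC (n + 2) : ℕ) : B) := by
  unfold dC
  split_ifs with h
  · apply hB
    intro hd
    obtain ⟨q, k, hq, hk, hqk⟩ := (isPrimePow_nat_iff _).1 h
    rw [← hqk, hq.pow_minFac hk.ne', Nat.prime_dvd_prime_iff_eq hp hq] at hd
    exact hn ⟨k, by rw [hd, hqk]⟩
  · rw [Nat.cast_one]
    exact isUnit_one

section typ

variable (p : ℕ) {A B : Type*} [CommRing A] [CommRing B]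

open Classical in
/-- the coefficients off the indices `p^k - 2` -/
noncomputable def bS (c : ℕ → B) (n : ℕ) : B := if ∃ k, n + 2 = p ^ k then 0 else c n

/-- the values `v_{k+1} = c (p^{k+1} - 2)` -/
noncomputable def vS (c : ℕ → B) : MvPolynomial ℕ ℤ →+* B :=
  MvPolynomial.eval₂Hom (Int.castRingHom B) fun k => c (p ^ (k + 1) - 2)

theorem vS_X (c : ℕ → B) (k : ℕ) : vS p c (MvPolynomial.X k) = c (p ^ (k + 1) - 2) := by
  simp [vS]

theorem map_bS (θ : A →+* B) (c : ℕ → A) (n : ℕ) :
    θ (bS p c n) = bS p (fun n => θ (c n)) n := by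
  unfold bS
  split_ifs
  · exact map_zero θ
  · rfl

theorem comp_vS (θ : A →+* B) (c : ℕ → A) : θ.comp (vS p c) = vS p (fun n => θ (c n)) := by
  apply MvPolynomial.ringHom_ext
  · intro r
    simp [vS]
  · intro i
    rw [RingHom.comp_apply, vS_X, vS_X]

variable [hp : Fact p.Prime]

/-- `c` is the sequence of the canonical isomorphism of `F` with a Hazewinkel law. -/
def IsTyp (F : Law B) (c : ℕ → B) : Prop :=
  strictMk (bS p c) • F = (haz p).map (vS p c)

theorem existsUnique_typ (hB : PLoc p B) (F : Law B) : ∃! c : ℕ → B, IsTyp p F c := by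
  classical
  set Φ : (ℕ → B) → ℕ → B := fun c n =>
    xC (strictMk (bS p c) • F) n - xC ((haz p).map (vS p c)) n with hΦ
  have key := exists_unique_triangular Φ (fun n => if ∃ k, n + 2 = p ^ k then 1 else
      ((dC (n + 2) : ℕ) : B)) (fun n => by
        split_ifs with h
        · exact isUnit_one
        · exact isUnit_dC hp.out hB h) (fun n c c' hcc => by
      have h1 := smul_compare (f := strictMk (bS p c)) (g := strictMk (bS p c'))
        (strictMk_mem _) (n := n) (fun k hk => by
          rcases k with _ | k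
          · rw [c_zero_strictMk, c_zero_strictMk]
          · rw [c_succ_strictMk, c_succ_strictMk]
            unfold bS
            rw [hcc k (by omega)]) F
      rw [c_succ_strictMk, c_succ_strictMk] at h1
      by_cases hn : ∃ k, n + 2 = p ^ k
      · obtain ⟨k, hk⟩ := hn
        obtain ⟨k, rfl⟩ : ∃ l, k = l + 1 := ⟨k - 1, by
          rcases k with _ | k
          · rw [pow_zero] at hk
            omega
          · rfl⟩
        have hn' : p ^ (k + 1) - 2 = n := by omega
        have h2 := haz_compare p (φ := vS p c) (φ' := vS p c') (k := k) (fun j hj => by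
          rw [vS_X, vS_X]
          apply hcc
          have h3 : p ^ (j + 1) < p ^ (k + 1) :=
            Nat.pow_lt_pow_right hp.out.one_lt (by omega)
          have h4 := two_le_pow (k := j + 1) hp.out (Nat.succ_ne_zero j)
          omega)
        rw [vS_X, vS_X, hn'] at h2
        have h5 : bS p c n - bS p c' n = 0 := by
          unfold bS
          rw [if_pos ⟨_, hk⟩, if_pos ⟨_, hk⟩, sub_self]
        rw [if_pos ⟨_, hk⟩, one_mul, hΦ]
        dsimp only
        rw [h5, smul_zero] at h1
        linear_combination h1.2 - h2.2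
      · rw [if_neg hn]
        set k := Nat.log p (n + 2) with hkdef
        have hk1 : p ^ k ≤ n + 2 := Nat.pow_log_le_self p (by omega)
        have hk2 : n + 2 < p ^ (k + 1) := Nat.lt_pow_succ_log_self hp.out.one_lt _
        have h2 := haz_compare p (φ := vS p c) (φ' := vS p c') (k := k) (fun j hj => by
          rw [vS_X, vS_X]
          apply hcc
          have h3 : p ^ (j + 1) ≤ p ^ k := Nat.pow_le_pow_right hp.out.pos (by omega)
          have h4 := two_le_pow (k := j + 1) hp.out (Nat.succ_ne_zero j)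
          have h5 : n + 2 ≠ p ^ (j + 1) := fun h => hn ⟨_, h⟩
          omega)
        have h3 := xC_eq_of_sub_mem h2.1 hk2
        have h5 : bS p c n - bS p c' n = c n - c' n := by
          unfold bS
          rw [if_neg hn, if_neg hn]
        rw [hΦ]
        dsimp only
        rw [h5, nsmul_eq_mul] at h1
        linear_combination h1.2 - h3)
  have hiff : ∀ c, IsTyp p F c ↔ ∀ n, Φ c n = 0 := by
    intro c
    rw [hΦ]
    constructor
    · intro h n
      dsimp only
      rw [h, sub_self]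
    · intro h
      exact law_ext_xC fun n => sub_eq_zero.1 (h n)
  simpa only [hiff] using key

/-- The sequence of the canonical isomorphism of `F` with a Hazewinkel law. -/
noncomputable def typ (hB : PLoc p B) (F : Law B) : ℕ → B := (existsUnique_typ p hB F).choose

theorem isTyp_typ (hB : PLoc p B) (F : Law B) : IsTyp p F (typ p hB F) :=
  (existsUnique_typ p hB F).choose_spec.1

theorem eq_typ (hB : PLoc p B) {F : Law B} {c : ℕ → B} (h : IsTyp p F c) : c = typ p hB F :=
  (existsUnique_typ p hB F).choose_spec.2 c h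

theorem IsTyp.map {F : Law A} {c : ℕ → A} (h : IsTyp p F c) (θ : A →+* B) :
    IsTyp p (F.map θ) fun n => θ (c n) := by
  have h1 := congrArg (Law.map θ) h
  rw [InvSeries.map_smul, map_strictMk, Law.map_map, comp_vS] at h1
  unfold IsTyp
  rw [← h1]
  congr 2
  funext n
  exact (map_bS p θ c n).symm

/-- naturality -/
theorem typ_map (hA : PLoc p A) (hB : PLoc p B) (θ : A →+* B) (F : Law A) (n : ℕ) :
    typ p hB (F.map θ) n = θ (typ p hA F n) :=
  (congrFun (eq_typ p hB ((isTyp_typ p hA F).map p θ)) n).symm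

omit hp in
theorem strictMk_zero : strictMk (fun _ => 0 : ℕ → B) = 1 := by
  apply InvSeries.ext_c
  rintro (_ | n)
  · rw [c_zero_strictMk, InvSeries.c_zero_one]
  · rw [c_succ_strictMk, InvSeries.c_one_succ]

open Classical in
/-- the sequence of a Hazewinkel law -/
noncomputable def seqV (φ : MvPolynomial ℕ ℤ →+* B) (n : ℕ) : B :=
  if ∃ k, n + 2 = p ^ k then φ (MvPolynomial.X (Nat.log p (n + 2) - 1)) else 0

omit hp in
theorem bS_seqV (φ : MvPolynomial ℕ ℤ →+* B) : bS p (seqV p φ) = fun _ => 0 := by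
  funext n
  unfold bS seqV
  split_ifs <;> rfl

theorem vS_seqV (φ : MvPolynomial ℕ ℤ →+* B) : vS p (seqV p φ) = φ := by
  apply MvPolynomial.ringHom_ext
  · intro r
    simp
  · intro k
    rw [vS_X, seqV]
    have h1 : p ^ (k + 1) - 2 + 2 = p ^ (k + 1) :=
      Nat.sub_add_cancel (two_le_pow (k := k + 1) hp.out (Nat.succ_ne_zero k))
    rw [h1, if_pos ⟨_, rfl⟩, Nat.log_pow hp.out.one_lt, Nat.add_sub_cancel]

theorem isTyp_haz (φ : MvPolynomial ℕ ℤ →+* B) : IsTyp p ((haz p).map φ) (seqV p φ) := by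
  unfold IsTyp
  rw [bS_seqV, vS_seqV, strictMk_zero, one_smul]

/-- the sequence of a Hazewinkel law -/
theorem typ_haz (hB : PLoc p B) (φ : MvPolynomial ℕ ℤ →+* B) :
    typ p hB ((haz p).map φ) = seqV p φ := (eq_typ p hB (isTyp_haz p φ)).symm

theorem haz_map_injective (hB : PLoc p B) {φ φ' : MvPolynomial ℕ ℤ →+* B}
    (h : (haz p).map φ = (haz p).map φ') : φ = φ' := by
  have h1 := typ_haz p hB φ
  rw [h, typ_haz p hB φ'] at h1
  rw [← vS_seqV p φ, ← h1, vS_seqV]

end typ

end Vale.Agent.P257.H80
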