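import Vale.Agent.P257.H80.MUSer
import Vale.Agent.P257.H80.HazWt
import Vale.Agent.P251.F.Grade

/-!
# P257 (helper80): homogeneity of the canonical isomorphism with a Hazewinkel law
-/

open CategoryTheory MonoidalCategory MonObj Limits Pretriangulated
open LaurentPolynomial (T)

set_option linter.unusedSectionVars false

universe u

namespace Vale.Agent.P257.H80

open Vale.Agent.P251 Vale.Agent.P251.S Vale.Agent.P251.T Vale.Agent.P251.M Vale.Agent.P251.F
  Vale.Agent.P251.I EvenSpheres

variable {𝒯 : Type u} [Category.{0} 𝒯] [Preadditive 𝒯] [HasZeroObject 𝒯]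
    [HasShift 𝒯 ℤ] [∀ n : ℤ, (shiftFunctor 𝒯 n).Additive] [Pretriangulated 𝒯] [IsTriangulated 𝒯]
    [MonoidalCategory 𝒯] [SymmetricCategory 𝒯] [TensorTriangulated 𝒯] [MonoidalClosed 𝒯]
    [HasCoproducts.{0} 𝒯] [HasProducts.{0} 𝒯] [StableCat 𝒯]

section coact

variable (K : 𝒯) [MonObj K] [IsCommMonObj K]

/-- the coaction of the multiplicative group on the homotopy ring -/
noncomputable def coactH : HRing (stdEven 𝒯) K →+* LaurentPolynomial (HRing (stdEven 𝒯) K) :=
  DirectSum.toSemiring (fun n =>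
    { toFun := fun a => LaurentPolynomial.C (HRing.of (stdEven 𝒯) K n a) * T n
      map_zero' := by
        have h : HRing.of (stdEven 𝒯) K n 0 = 0 := (DirectSum.of ((stdEven 𝒯).Gr K) n).map_zero
        rw [h, map_zero, zero_mul]
      map_add' := fun a b => by
        have h : HRing.of (stdEven 𝒯) K n (a + b) = HRing.of (stdEven 𝒯) K n a +
          HRing.of (stdEven 𝒯) K n b := (DirectSum.of ((stdEven 𝒯).Gr K) n).map_add _ _
        rw [h, map_add, add_mul] })
    (by
      change LaurentPolynomial.C (HRing.of (stdEven 𝒯) K 0 ((stdEven 𝒯).zero.inv ≫ η[K])) * T 0 = 1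
      rw [of_one, map_one, LaurentPolynomial.T_zero, _root_.mul_one])
    (by
      intro m n a b
      change LaurentPolynomial.C (HRing.of (stdEven 𝒯) K (m + n) (gmul rfl a b)) * T (m + n) =
        (LaurentPolynomial.C (HRing.of (stdEven 𝒯) K m a) * T m) *
          (LaurentPolynomial.C (HRing.of (stdEven 𝒯) K n b) * T n)
      rw [← of_mul_of, map_mul, LaurentPolynomial.T_add]
      ring)

theorem coactH_of (n : ℤ) (a : (stdEven 𝒯).S n ⟶ K) :
    coactH K (HRing.of (stdEven 𝒯) K n a) =
      LaurentPolynomial.C (HRing.of (stdEven 𝒯) K n a) * T n :=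
  DirectSum.toSemiring_of _ _ _ _ _

variable {K}

theorem isHomog_iff {n : ℤ} {x : HRing (stdEven 𝒯) K} :
    IsHomog K n x ↔ coactH K x = LaurentPolynomial.C x * T n := by
  constructor
  · rintro ⟨a, rfl⟩
    exact coactH_of K n a
  · intro h
    have key : ∀ (y : HRing (stdEven 𝒯) K) (m : ℤ),
        (coactH K y).coeff m = HRing.of (stdEven 𝒯) K m (y m) := by
      intro y m
      induction y using DirectSum.induction_on with
      | zero =>
        rw [map_zero]
        exact ((DirectSum.of ((stdEven 𝒯).Gr K) m).map_zero).symm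
      | of i a =>
        refine (congrArg (fun z => z.coeff m) (coactH_of K i a)).trans ?_
        rw [Vale.Agent.P251.F.coeff_C_mul_T]
        split_ifs with him
        · subst him
          congr 1
          exact (DirectSum.of_eq_same (β := (stdEven 𝒯).Gr K) i a).symm
        · have h0 : (DirectSum.of ((stdEven 𝒯).Gr K) i a) m = 0 :=
            DirectSum.of_eq_of_ne i m a (fun h => him h.symm)
          rw [h0]
          exact ((DirectSum.of ((stdEven 𝒯).Gr K) m).map_zero).symm
      | add x y hx hy =>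
        rw [map_add]
        change (coactH K x).coeff m + (coactH K y).coeff m = _
        rw [hx, hy]
        exact ((DirectSum.of ((stdEven 𝒯).Gr K) m).map_add _ _).symm
    refine ⟨x n, ?_⟩
    rw [← key x n, h, Vale.Agent.P251.F.coeff_C_mul_T, if_pos rfl]

end coact

section law

variable {D : MUData 𝒯} {K : 𝒯} [MonObj K] [IsCommMonObj K]

/-- the homomorphism `Cob Laz 0 ⟶ π_* K` of a monoid map `u : MU ⟶ K` -/
noncomputable def evK (u : D.R ⟶ K) [IsMonHom u] : Cob Laz 0 →+* HRing (stdEven 𝒯) K :=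
  (HRing.map (E := stdEven 𝒯) (amOne D.R ≫ u)).comp (D.ev 0)

theorem lawOf_eq (u : D.R ⟶ K) [IsMonHom u] :
    lawOf u = Laz.univ.map ((evK u).comp MvPolynomial.C) := by
  rw [lawOf, MUData.law, MUData.law1, Law.map_map, Law.map_map, evK, HRing.map_comp,
    RingHom.comp_assoc, RingHom.comp_assoc, RingHom.comp_assoc]

theorem isHomog_evK (u : D.R ⟶ K) [IsMonHom u] {w : ℤ} {z : Cob Laz 0} (hz : Cob.IsWt w z) :
    IsHomog K w (evK u z) := by
  obtain ⟨a, ha⟩ := D.ev_wt 0 w z hz
  refine ⟨a ≫ amOne D.R ≫ u, ?_⟩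
  rw [evK, RingHom.comp_apply, ha, HRing.map_of]

/-- the law of `u` is homogeneous -/
theorem lawOf_coact (u : D.R ⟶ K) [IsMonHom u] :
    (lawOf u).map (coactH K) =
      (InvSeries.lin (unitT (HRing (stdEven 𝒯) K)))⁻¹ •
        (lawOf u).map (LaurentPolynomial.C : _ →+* LaurentPolynomial (HRing (stdEven 𝒯) K)) := by
  set c : Chain Laz 0 (HRing (stdEven 𝒯) K) := (Cob.univ Laz 0).map (evK u) with hc
  have h1 : (coactH K).comp (evK u) =
      Cob.ev ((c.map (LaurentPolynomial.C : _ →+* LaurentPolynomial (HRing (stdEven 𝒯) K))).scale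
        (unitT (HRing (stdEven 𝒯) K))) := by
    refine RingHom.ext fun z => ?_
    rw [← Cob.sum_proj z, map_sum, map_sum]
    refine Finset.sum_congr rfl fun w _ => ?_
    rw [Cob.isWt_proj w z, unitT_zpow, Cob.ev_map, hc, Cob.ev_map, Cob.ev_univ,
      RingHom.comp_apply, isHomog_iff.1 (isHomog_evK u (Cob.isWt_proj w z)), mul_comm]
  have h2 := congrArg (fun f => Laz.univ.map (f.comp (MvPolynomial.C : Laz →+* Cob Laz 0))) h1
  have h3 : (Cob.ev ((c.map (LaurentPolynomial.C : _ →+*
      LaurentPolynomial (HRing (stdEven 𝒯) K))).scale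
        (unitT (HRing (stdEven 𝒯) K)))).comp (MvPolynomial.C : Laz →+* Cob Laz 0) =
      LawRing.act (InvSeries.lin (unitT (HRing (stdEven 𝒯) K)))⁻¹
        ((LaurentPolynomial.C : _ →+* LaurentPolynomial (HRing (stdEven 𝒯) K)).comp c.pt) := by
    refine RingHom.ext fun z => ?_
    rw [RingHom.comp_apply, Cob.ev_C]
    rfl
  rw [h3, Laz.act_eq, Laz.univ_map_lift, RingHom.comp_assoc, ← Law.map_map, ← lawOf_eq,
    ← Law.map_map] at h2
  rw [h2, hc, Chain.map_pt, Cob.univ_pt, ← lawOf_eq]

variable {p : ℕ} [Fact p.Prime]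

/-- **Homogeneity of the canonical sequence.** -/
theorem isHomog_typ (hK : PLoc p (HRing (stdEven 𝒯) K)) (u : D.R ⟶ K) [IsMonHom u] (n : ℕ) :
    IsHomog K ((n + 1 : ℕ) : ℤ) (typ p hK (lawOf u) n) := by
  rw [isHomog_iff]
  have hL : PLoc p (LaurentPolynomial (HRing (stdEven 𝒯) K)) := hK.map LaurentPolynomial.C
  have h1 := typ_map p hK hL (coactH K) (lawOf u) n
  have h2 := typ_map p hK hL (LaurentPolynomial.C : _ →+* LaurentPolynomial _) (lawOf u) n
  rw [lawOf_coact, typ_lin, h2] at h1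
  rw [← h1, mul_comm]
  congr 1
  have h3 := unitT_zpow (HRing (stdEven 𝒯) K) ((n + 1 : ℕ) : ℤ)
  rw [← h3, zpow_natCast, Units.val_pow_eq_pow_val]

end law

end Vale.Agent.P257.H80
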