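import Vale.Agent.P257.H80.HomTyp

/-!
# P257 (helper80): `p`-localization of commutative monoids
-/

open CategoryTheory MonoidalCategory MonObj Limits Pretriangulated

set_option linter.unusedSectionVars false

universe v u

namespace Vale.Agent.P257.H80

open Vale.Agent.P251 Vale.Agent.P251.S Vale.Agent.P251.T Vale.Agent.P251.M Vale.Agent.P251.F
  Vale.Agent.P251.I EvenSpheres

section

variable {T : Type u} [Category.{v} T] [Preadditive T]

/-- the integers prime to `p` are invertible on `Z` -/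
def LocO (p : ℕ) (Z : T) : Prop := ∀ m : ℤ, ¬ (p : ℤ) ∣ m → IsIso (m • 𝟙 Z)

theorem LocO.retract {p : ℕ} {X Y : T} (h : LocO p Y) (s : X ⟶ Y) (r : Y ⟶ X) (hs : s ≫ r = 𝟙 X) :
    LocO p X := by
  intro m hm
  have := h m hm
  refine ⟨s ≫ inv (m • 𝟙 Y) ≫ r, ?_, ?_⟩
  · have h1 : (m • 𝟙 X) ≫ s = s ≫ (m • 𝟙 Y) := by
      rw [Preadditive.zsmul_comp, Preadditive.comp_zsmul, Category.id_comp, Category.comp_id]
    rw [reassoc_of% h1, IsIso.hom_inv_id_assoc, hs]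
  · have h1 : r ≫ (m • 𝟙 X) = (m • 𝟙 Y) ≫ r := by
      rw [Preadditive.zsmul_comp, Preadditive.comp_zsmul, Category.id_comp, Category.comp_id]
    rw [Category.assoc, Category.assoc, h1, IsIso.inv_hom_id_assoc, hs]

variable [MonoidalCategory T] [SymmetricCategory T]

/-- `l : X ⟶ Y` is a `p`-localization, in the strong sense -/
structure IsLoc (p : ℕ) {X Y : T} (l : X ⟶ Y) : Prop where
  loc : LocO p Y
  bij (Z : T) (hZ : LocO p Z) (W : T) : Function.Bijective (fun f : Y ⊗ W ⟶ Z => (l ▷ W) ≫ f)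

namespace IsLoc

variable {p : ℕ} {X Y : T} {l : X ⟶ Y} (h : IsLoc p l) {Z : T} (hZ : LocO p Z)

include h hZ

theorem ext_right {W : T} {f g : Y ⊗ W ⟶ Z} (hfg : (l ▷ W) ≫ f = (l ▷ W) ≫ g) : f = g :=
  (h.bij Z hZ W).1 hfg

theorem ext_left {W : T} {f g : W ⊗ Y ⟶ Z} (hfg : (W ◁ l) ≫ f = (W ◁ l) ≫ g) : f = g := by
  rw [← cancel_epi (β_ Y W).hom]
  apply h.ext_right hZ
  rw [BraidedCategory.braiding_naturality_left_assoc,
    BraidedCategory.braiding_naturality_left_assoc, hfg]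

theorem ext {f g : Y ⟶ Z} (hfg : l ≫ f = l ≫ g) : f = g := by
  rw [← cancel_epi (ρ_ Y).hom]
  apply h.ext_right hZ
  rw [rightUnitor_naturality_assoc, rightUnitor_naturality_assoc, hfg]

theorem exists_ext (u : X ⟶ Z) : ∃ f : Y ⟶ Z, l ≫ f = u := by
  obtain ⟨g, hg⟩ := (h.bij Z hZ (𝟙_ T)).2 ((ρ_ X).hom ≫ u)
  refine ⟨(ρ_ Y).inv ≫ g, ?_⟩
  dsimp only at hg
  rw [rightUnitor_inv_naturality_assoc, hg, Iso.inv_hom_id_assoc]

theorem ext_tensor {f g : Y ⊗ Y ⟶ Z} (hfg : (l ⊗ₘ l) ≫ f = (l ⊗ₘ l) ≫ g) : f = g := by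
  apply h.ext_right hZ
  apply h.ext_left hZ
  rw [← tensorHom_def'_assoc, ← tensorHom_def'_assoc, hfg]

/-- extension of monoid maps -/
theorem exists_mon [MonObj X] [MonObj Y] [IsMonHom l] [MonObj Z] (u : X ⟶ Z) [IsMonHom u] :
    ∃ (f : Y ⟶ Z) (_ : IsMonHom f), l ≫ f = u := by
  obtain ⟨f, hf⟩ := h.exists_ext hZ u
  refine ⟨f, ⟨?_, ?_⟩, hf⟩
  · rw [← IsMonHom.one_hom l, Category.assoc, hf, IsMonHom.one_hom]
  · apply h.ext_tensor hZ
    rw [← IsMonHom.mul_hom_assoc, hf, IsMonHom.mul_hom, tensorHom_comp_tensorHom_assoc, hf]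

end IsLoc

end

section ring

variable {T : Type u} [Category.{v} T] [Preadditive T] [HasZeroObject T]
    [HasShift T ℤ] [∀ n : ℤ, (shiftFunctor T n).Additive] [Pretriangulated T] [IsTriangulated T]
    [MonoidalCategory T] [SymmetricCategory T] [TensorTriangulated T] [MonoidalClosed T]
    [HasCoproducts.{0} T] [HasProducts.{0} T] [StableCat T]

theorem of_natCast (K : T) [MonObj K] [IsCommMonObj K] (m : ℕ) :
    (m : HRing (stdEven T) K) = HRing.of (stdEven T) K 0 ((stdEven T).zero.inv ≫ (m • η[K])) := by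
  have h : HRing.of (stdEven T) K 0 (m • ((stdEven T).zero.inv ≫ η[K])) =
      m • HRing.of (stdEven T) K 0 ((stdEven T).zero.inv ≫ η[K]) :=
    (DirectSum.of ((stdEven T).Gr K) 0).map_nsmul _ _
  rw [Preadditive.comp_nsmul, h, of_one, nsmul_eq_mul, _root_.mul_one]

/-- the homotopy ring of a `p`-local commutative monoid is `p`-local -/
theorem pLoc_of_locO {p : ℕ} {K : T} [MonObj K] [IsCommMonObj K] (h : LocO p K) :
    PLoc p (HRing (stdEven T) K) := by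
  intro m hm
  have := h m (fun h => hm (Int.natCast_dvd_natCast.1 h))
  refine IsUnit.of_mul_eq_one (HRing.of (stdEven T) K 0
    ((stdEven T).zero.inv ≫ η[K] ≫ inv ((m : ℤ) • 𝟙 K))) ?_
  have h2 : (m : HRing (stdEven T) K) * HRing.of (stdEven T) K 0
    ((stdEven T).zero.inv ≫ η[K] ≫ inv ((m : ℤ) • 𝟙 K)) = m • HRing.of (stdEven T) K 0
    ((stdEven T).zero.inv ≫ η[K] ≫ inv ((m : ℤ) • 𝟙 K)) := (nsmul_eq_mul _ _).symm
  have h3 : HRing.of (stdEven T) K 0 (m • ((stdEven T).zero.inv ≫ η[K] ≫ inv ((m : ℤ) • 𝟙 K))) =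
      m • HRing.of (stdEven T) K 0 ((stdEven T).zero.inv ≫ η[K] ≫ inv ((m : ℤ) • 𝟙 K)) :=
    (DirectSum.of ((stdEven T).Gr K) 0).map_nsmul _ _
  rw [h2, ← h3]
  have h4 : m • ((stdEven T).zero.inv ≫ η[K] ≫ inv ((m : ℤ) • 𝟙 K)) =
      (stdEven T).zero.inv ≫ η[K] := by
    have h5 : m • inv ((m : ℤ) • 𝟙 K) = 𝟙 K := by
      have h6 : ((m : ℤ) • 𝟙 K) ≫ inv ((m : ℤ) • 𝟙 K) = 𝟙 K := IsIso.hom_inv_id _
      rw [Preadditive.zsmul_comp, Category.id_comp, natCast_zsmul] at h6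
      exact h6
    rw [← Preadditive.comp_nsmul, ← Preadditive.comp_nsmul, h5, Category.comp_id]
  rw [h4, of_one]

end ring

end Vale.Agent.P257.H80
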