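import Vale.Agent.P251.M.Univ
import Vale.Agent.P251.M.MonUniv
import Vale.Agent.P251.M.ThomInst

/-!
# P257 (helper80): monoid maps out of `MU` and multiplicative Thom classes
-/

open CategoryTheory MonoidalCategory Limits Pretriangulated
open Vale.Agent.P251.G Vale.Agent.P251.G.LC Vale.Agent.P251.I Vale.Agent.P251.T

universe v u

set_option linter.unusedSectionVars false

noncomputable section

namespace Vale.Agent.P257.H80

open Vale.Agent.P251 Vale.Agent.P251.M

variable {T : Type u} [Category.{v} T] [Preadditive T] [HasZeroObject T]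
    [HasShift T ℤ] [∀ n : ℤ, (shiftFunctor T n).Additive] [Pretriangulated T] [IsTriangulated T]
    [MonoidalCategory T] [SymmetricCategory T] [TensorTriangulated T] [MonoidalClosed T]
    [HasCoproducts.{0} T] [HasProducts.{0} T] [StableCat T]
  {F : SpaceFunctor T} {E : EvenSpheres T} {e : F.S.obj CCF ≅ E.L}

section push

variable {K K' : T} [MonObj K] [IsCommMonObj K] [MonObj K'] [IsCommMonObj K']

/-- the image of a family of Thom classes under a monoid map -/
def pushFam (W : ThomFam (RSys K E) F (lineCls e (SeqMonoid.const K))) (f : K ⟶ K')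
    [IsMonHom f] : ThomFam (RSys K' E) F (lineCls e (SeqMonoid.const K')) :=
  W.push ((SeqMonoid.Hom.const f).msys E) (lineCls_msys e (SeqMonoid.Hom.const f))

theorem hq_pushFam (W : ThomFam (RSys K E) F (lineCls e (SeqMonoid.const K))) (f : K ⟶ K')
    [IsMonHom f] (n N : ℕ) :
    hq K' E n _ ((pushFam W f).w n N) = hq K E n _ (W.w n N) ≫ (f ▷ E.S n) := hq_hmap f _

theorem fam_ext {W W' : ThomFam (RSys K E) F (lineCls e (SeqMonoid.const K))}
    (h : ∀ n N : ℕ, hq K E n _ (W.w n N) = hq K E n _ (W'.w n N)) : W = W' :=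
  ThomFam.ext_w fun n N => (hq_bijective (R := K) (S := E) n _).1 (h n N)

theorem pushFam_comp {K'' : T} [MonObj K''] [IsCommMonObj K'']
    (W : ThomFam (RSys K E) F (lineCls e (SeqMonoid.const K))) (f : K ⟶ K') [IsMonHom f]
    (g : K' ⟶ K'') [IsMonHom g] : pushFam (pushFam W f) g = pushFam W (f ≫ g) := by
  apply fam_ext
  intro n N
  rw [hq_pushFam, hq_pushFam, hq_pushFam, Category.assoc, comp_whiskerRight]

theorem pushFam_congr (W : ThomFam (RSys K E) F (lineCls e (SeqMonoid.const K))) {f g : K ⟶ K'}
    [IsMonHom f] [IsMonHom g] (h : f = g) : pushFam W f = pushFam W g := by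
  subst h
  rfl

end push

variable (M : MUMon F E e) {K : T} [MonObj K] [IsCommMonObj K]

/-- **Existence** of a monoid map with prescribed Thom classes. -/
theorem exists_pushFam (W : ThomFam (RSys K E) F (lineCls e (SeqMonoid.const K))) :
    ∃ (u : M.R ⟶ K) (_ : IsMonHom u), pushFam M.fam u = W := by
  obtain ⟨u, hu, _, h⟩ := M.exists_univ_of_cls W (clsOfFam e W) (fun _ _ => rfl)
  exact ⟨u, hu, h⟩

/-- **Uniqueness.** -/
theorem eq_of_pushFam {u u' : M.R ⟶ K} [IsMonHom u] [IsMonHom u']
    (h : pushFam M.fam u = pushFam M.fam u') : u = u' := by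
  refine tel_ext (seqMU F E e) M.tel (limOne_MU_const F E e ((pushFam M.fam u).orientation (cofTriangles F)
    (isSusp_lineCls e (SeqMonoid.const K)))) fun a => ?_
  have h1 := congrArg (fun W => hq K E a _ (W.w a (a + a))) h
  rw [hq_pushFam, hq_pushFam, M.hq_fam le_rfl le_rfl, Category.assoc, Category.assoc,
    ← comp_whiskerRight, ← comp_whiskerRight] at h1
  have := isIso_thomθ F E e a
  rw [cancel_epi] at h1
  exact whiskerRight_inj _ h1

end Vale.Agent.P257.H80
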