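import Vale.Agent.P251.M.KBasisMU

/-!
# P257 (helper80): monoid maps from a graded basis

`B` a commutative monoid with a graded basis `w j` over `φ : K ⟶ B`, where `K` is a commutative
monoid. Monoid maps `B ⟶ K'` are determined by their restriction along `φ` and by the images of
the `w j`. If the basis is multiplicative, then every multiplicative family `c j ∈ π_* K`
is the family of the images under a monoid map `B ⟶ K` which is the identity on `K`.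
-/

open CategoryTheory MonoidalCategory MonObj Limits Pretriangulated

set_option linter.unusedSectionVars false

universe v u

namespace Vale.Agent.P257.H80

open Vale.Agent.P251 Vale.Agent.P251.S Vale.Agent.P251.T Vale.Agent.P251.M Vale.Agent.P251.F
  EvenSpheres

variable {T : Type u} [Category.{v} T] [Preadditive T] [HasZeroObject T]
    [HasShift T ℤ] [∀ n : ℤ, (shiftFunctor T n).Additive] [Pretriangulated T] [IsTriangulated T]
    [MonoidalCategory T] [SymmetricCategory T] [TensorTriangulated T] [MonoidalClosed T]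
    [HasCoproducts.{0} T] [HasProducts.{0} T] [StableCat T] {E : EvenSpheres T}

section

variable {K B : T} [MonObj K] [MonObj B] {φ : K ⟶ B} {J : Type} (b : GBasis E φ J)

/-- the structure isomorphism of a graded basis -/
noncomputable def bdesc : (∐ fun j => K ⊗ E.S (b.k j)) ⟶ B :=
  Sigma.desc fun j => (φ ⊗ₘ b.w j) ≫ μ[B]

instance : IsIso (bdesc b) := b.isIso

/-- two maps out of `B` agree if they agree on the summands -/
theorem basis_hom_ext {Z : T} {g g' : B ⟶ Z}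
    (h : ∀ j, ((φ ⊗ₘ b.w j) ≫ μ[B]) ≫ g = ((φ ⊗ₘ b.w j) ≫ μ[B]) ≫ g') : g = g' := by
  rw [← cancel_epi (bdesc b)]
  refine Sigma.hom_ext _ _ fun j => ?_
  rw [bdesc, Sigma.ι_desc_assoc, Sigma.ι_desc_assoc]
  exact h j

/-- two maps out of `B ⊗ Y` agree if they agree on the summands -/
theorem basis_hom_extY {Y Z : T} {g g' : B ⊗ Y ⟶ Z}
    (h : ∀ j, (((φ ⊗ₘ b.w j) ≫ μ[B]) ▷ Y) ≫ g = (((φ ⊗ₘ b.w j) ≫ μ[B]) ▷ Y) ≫ g') : g = g' := by
  have := b.isIsoY Y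
  rw [← cancel_epi (Sigma.desc fun j => ((φ ⊗ₘ b.w j) ≫ μ[B]) ▷ Y)]
  refine Sigma.hom_ext _ _ fun j => ?_
  rw [Sigma.ι_desc_assoc, Sigma.ι_desc_assoc]
  exact h j

/-- two maps out of `Y ⊗ B` agree if they agree on the summands -/
theorem basis_hom_extY' {Y Z : T} {g g' : Y ⊗ B ⟶ Z}
    (h : ∀ j, (Y ◁ ((φ ⊗ₘ b.w j) ≫ μ[B])) ≫ g = (Y ◁ ((φ ⊗ₘ b.w j) ≫ μ[B])) ≫ g') : g = g' := by
  rw [← cancel_epi (β_ B Y).hom]
  refine basis_hom_extY b fun j => ?_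
  rw [BraidedCategory.braiding_naturality_left_assoc,
    BraidedCategory.braiding_naturality_left_assoc, h]

/-- **Uniqueness.** -/
theorem mon_hom_ext {K' : T} [MonObj K'] {g g' : B ⟶ K'} [IsMonHom g] [IsMonHom g']
    (h0 : φ ≫ g = φ ≫ g') (h : ∀ j, b.w j ≫ g = b.w j ≫ g') : g = g' := by
  refine basis_hom_ext b fun j => ?_
  rw [Category.assoc, Category.assoc, IsMonHom.mul_hom, IsMonHom.mul_hom,
    tensorHom_comp_tensorHom_assoc, tensorHom_comp_tensorHom_assoc, h0, h]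

/-- the `K`-linear map `B ⟶ K` with prescribed values on the basis -/
noncomputable def blin (c : ∀ j, E.S (b.k j) ⟶ K) : B ⟶ K :=
  inv (bdesc b) ≫ Sigma.desc fun j => (K ◁ c j) ≫ μ[K]

@[reassoc]
theorem w_blin (c : ∀ j, E.S (b.k j) ⟶ K) (j : J) :
    ((φ ⊗ₘ b.w j) ≫ μ[B]) ≫ blin b c = (K ◁ c j) ≫ μ[K] := by
  have h : (φ ⊗ₘ b.w j) ≫ μ[B] = Sigma.ι (fun j => K ⊗ E.S (b.k j)) j ≫ bdesc b := by
    rw [bdesc, Sigma.ι_desc]
  rw [h, blin, Category.assoc, IsIso.hom_inv_id_assoc, Sigma.ι_desc]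

theorem mu_comp_w [IsCommMonObj B] [IsMonHom φ] {i j l : J} (hd : b.k i + b.k j = b.k l)
    (hw : gmul hd (b.w i) (b.w j) = b.w l) :
    (((φ ⊗ₘ b.w i) ≫ μ[B]) ⊗ₘ ((φ ⊗ₘ b.w j) ≫ μ[B])) ≫ μ[B] =
      tensorμ K (E.S (b.k i)) K (E.S (b.k j)) ≫
        (μ[K] ⊗ₘ (E.mu _ _ _ hd).hom) ≫ (φ ⊗ₘ b.w l) ≫ μ[B] := by
  have h1 : (b.w i ⊗ₘ b.w j) ≫ μ[B] = (E.mu _ _ _ hd).hom ≫ b.w l := by
    rw [← hw, gmul, EvenSpheres.ext]
    simp
  have h2 : μ[K] ≫ φ = (φ ⊗ₘ φ) ≫ μ[B] := IsMonHom.mul_hom φ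
  have h3 : (μ[B] ⊗ₘ μ[B]) ≫ μ[B] = tensorμ B B B B ≫ (μ[B] ⊗ₘ μ[B]) ≫ μ[B] := by
    exact (mul_mul_mul_comm (M := B)).symm
  rw [← tensorHom_comp_tensorHom, Category.assoc, h3, tensorμ_natural_assoc,
    tensorHom_comp_tensorHom_assoc, h1, ← h2, tensorHom_comp_tensorHom_assoc]

/-- **Existence**: multiplicativity. -/
theorem isMonHom_blin [IsCommMonObj K] [IsCommMonObj B] [IsMonHom φ] (c : ∀ j, E.S (b.k j) ⟶ K)
    (j0 : J) (hk0 : b.k j0 = 0) (hw0 : (E.castIso 0 _ hk0.symm).hom ≫ b.w j0 = E.zero.inv ≫ η[B])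
    (hc0 : (E.castIso 0 _ hk0.symm).hom ≫ c j0 = E.zero.inv ≫ η[K])
    (m : J → J → J) (hd : ∀ i j, b.k i + b.k j = b.k (m i j))
    (hw : ∀ i j, gmul (hd i j) (b.w i) (b.w j) = b.w (m i j))
    (hc : ∀ i j, gmul (hd i j) (c i) (c j) = c (m i j)) :
    IsMonHom (blin b c) ∧ φ ≫ blin b c = 𝟙 K ∧ ∀ j, b.w j ≫ blin b c = c j := by
  have hη : η[K] ≫ φ = η[B] := IsMonHom.one_hom φ
  -- the restriction to `K`
  have hφ : φ ≫ blin b c = 𝟙 K := by
    have h1 : φ = (ρ_ K).inv ≫ (K ◁ (E.zero.hom ≫ (E.castIso 0 _ hk0.symm).hom)) ≫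
        ((φ ⊗ₘ b.w j0) ≫ μ[B]) := by
      rw [tensorHom_def', Category.assoc, ← MonoidalCategory.whiskerLeft_comp_assoc,
        Category.assoc, hw0, Iso.hom_inv_id_assoc, whisker_exchange_assoc, MonObj.mul_one,
        rightUnitor_naturality, Iso.inv_hom_id_assoc]
    refine (congrArg (· ≫ blin b c) h1).trans ?_
    simp only [Category.assoc]
    have h2 := w_blin b c j0
    rw [Category.assoc] at h2
    rw [h2, ← MonoidalCategory.whiskerLeft_comp_assoc, Category.assoc, hc0,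
      Iso.hom_inv_id_assoc, MonObj.mul_one, Iso.inv_hom_id]
  have hwc : ∀ j, b.w j ≫ blin b c = c j := by
    intro j
    have h1 : b.w j = (λ_ (E.S (b.k j))).inv ≫ (η[K] ▷ E.S (b.k j)) ≫
        ((φ ⊗ₘ b.w j) ≫ μ[B]) := by
      rw [tensorHom_def, Category.assoc, ← comp_whiskerRight_assoc, hη, ← whisker_exchange_assoc,
        MonObj.one_mul, leftUnitor_naturality, Iso.inv_hom_id_assoc]
    refine (congrArg (· ≫ blin b c) h1).trans ?_
    simp only [Category.assoc]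
    have h2 := w_blin b c j
    rw [Category.assoc] at h2
    rw [h2, ← whisker_exchange_assoc, MonObj.one_mul, leftUnitor_naturality,
      Iso.inv_hom_id_assoc]
  refine ⟨⟨?_, ?_⟩, hφ, hwc⟩
  · rw [← hη, Category.assoc, hφ, Category.comp_id]
  · refine basis_hom_extY b fun i => ?_
    refine basis_hom_extY' b fun j => ?_
    have h1 := mu_comp_w b (hd i j) (hw i j)
    have hc' : (c i ⊗ₘ c j) ≫ μ[K] = (E.mu _ _ _ (hd i j)).hom ≫ c (m i j) := by
      rw [← hc, gmul, EvenSpheres.ext]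
      simp
    have h3 : tensorμ K K K K ≫ (μ[K] ⊗ₘ μ[K]) ≫ μ[K] = (μ[K] ⊗ₘ μ[K]) ≫ μ[K] :=
      mul_mul_mul_comm (M := K)
    have h4 : ((K ◁ c i) ≫ μ[K] ⊗ₘ (K ◁ c j) ≫ μ[K]) ≫ μ[K] =
        tensorμ K (E.S (b.k i)) K (E.S (b.k j)) ≫ (μ[K] ⊗ₘ (E.mu _ _ _ (hd i j)).hom) ≫
          (K ◁ c (m i j)) ≫ μ[K] := by
      rw [← tensorHom_comp_tensorHom, Category.assoc, ← h3, ← id_tensorHom, ← id_tensorHom,
        tensorμ_natural_assoc, tensorHom_comp_tensorHom_assoc, hc', ← id_tensorHom,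
        tensorHom_comp_tensorHom_assoc]
      simp
    rw [← tensorHom_def'_assoc, ← tensorHom_def'_assoc]
    have h5 : ((φ ⊗ₘ b.w i) ≫ μ[B] ⊗ₘ (φ ⊗ₘ b.w j) ≫ μ[B]) ≫ (blin b c ⊗ₘ blin b c) ≫ μ[K] =
        ((K ◁ c i) ≫ μ[K] ⊗ₘ (K ◁ c j) ≫ μ[K]) ≫ μ[K] := by
      rw [tensorHom_comp_tensorHom_assoc, w_blin, w_blin]
    rw [h5, h4, reassoc_of% h1]
    have h6 := w_blin b c (m i j)
    rw [Category.assoc] at h6
    rw [h6]

end

end Vale.Agent.P257.H80
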