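import Vale.Agent.P257.H702.LawDef
import Vale.Agent.P257.H80.HazDefs
import Mathlib.RingTheory.PowerSeries.Substitution

/-!
# P257, statement layer: the Brown-Peterson spectrum and its Hazewinkel generators

* `IsHaz` : Hazewinkel's formal group law over `ℤ[v_1, v_2, …]`;
* `IsPTyp` : `p`-local ring spectra with a `p`-typical complex orientation, with parameters `v_i`;
* `IsBrownPeterson` : the Brown-Peterson spectrum, the initial such ring spectrum;
* `hazV` : the elements `v_0 = p, v_1, v_2, …` of its homotopy;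
* `HasV` : existence of a Smith-Toda complex `V(n)`.
-/

open CategoryTheory MonoidalCategory OnePoint

noncomputable section

namespace Vale.Agent.P257.St

open Vale.Agent.P251.St Vale.Agent.P251.St.SHCat

/-- `F` is Hazewinkel's formal group law over `ℤ[v_1, v_2, …]`, where `v_{i+1}` is the variable
`X i`: `log F(x, y) = log x + log y` over `ℚ[v_1, v_2, …]` for Hazewinkel's logarithm
`log x = ∑ ℓ_n x ^ (p ^ n)`, where `ℓ_0 = 1` and `p ℓ_n = ∑_{i < n} ℓ_i v_{n-i} ^ (p ^ i)`. -/
structure IsHaz (p : ℕ) (F : MvPowerSeries (Fin 2) (MvPolynomial ℕ ℤ)) : Prop where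
  zero : MvPowerSeries.constantCoeff F = 0
  log : PowerSeries.subst (MvPowerSeries.map (MvPolynomial.map (Int.castRingHom ℚ)) F)
      (H80.hazLog p) =
    PowerSeries.subst (MvPowerSeries.X 0 : MvPowerSeries (Fin 2) (MvPolynomial ℕ ℚ))
        (H80.hazLog p) +
      PowerSeries.subst (MvPowerSeries.X 1 : MvPowerSeries (Fin 2) (MvPolynomial ℕ ℚ))
        (H80.hazLog p)

variable {T : SHCat} {S : Susp T}

/-- Families of homomorphisms of groups `φ` from the homogeneous polynomials of degree `2 n` in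
`ℤ[v_1, v_2, …]` to `π_{2n} R`. -/
abbrev GHom (S : Susp T) (p : ℕ) (R : RingSp T) : Type :=
  ∀ n : ℕ, VPoly p n →+ Hom (S.obj (Cn n)) R.obj

/-- the value of `φ` at `x` -/
abbrev GHom.val {p : ℕ} {R : RingSp T} (φ : GHom S p R) {n : ℕ} (x : VPoly p n) :
    Hom (S.obj (Cn n)) R.obj := φ n x

/-- `R` is `p`-local and the complex orientation `o` of `R` is `p`-typical: its formal group law is
the image of Hazewinkel's formal group law under a homomorphism of graded rings
`φ : ℤ[v_1, v_2, …] → π_* R`, `|v_i| = 2 (p ^ i - 1)`. -/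
structure IsPTyp {R : RingSp T} (p : ℕ) (o : Oriented S R) (φ : GHom S p R) : Prop where
  isLocal : PLocal p R.obj
  one : ∀ (a : VPoly p 0) (j : Map Pn (Cn 0)), (a : MvPolynomial ℕ ℤ) = 1 →
    j.toFun (Space.pt (X := Pn) ()) = Space.pt (X := Cn 0) 0 →
      comp S.unit (comp (S.map j) (φ.val a)) = R.unit
  mul : ∀ (n m : ℕ) (x : VPoly p n) (y : VPoly p m) (z : VPoly p (n + m)),
    (z : MvPolynomial ℕ ℤ) = x * y → IsProd (φ.val x) (φ.val y) (φ.val z)
  law : ∃ (F : MvPowerSeries (Fin 2) (MvPolynomial ℕ ℤ))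
    (a : ∀ k : ℕ, ℕ → Hom (S.obj (Cn k)) R.obj), IsHaz p F ∧ IsLaw o a ∧
      ∀ k, ∀ i < k + 2, ∃ x : VPoly p k, (x : MvPolynomial ℕ ℤ) =
        MvPowerSeries.coeff (Finsupp.single 0 i + Finsupp.single 1 (k + 1 - i)) F ∧
          a k i = φ.val x

/-- `f` is a homomorphism of ring spectra. -/
def IsRingMap {R R' : RingSp T} (f : Hom R.obj R'.obj) : Prop :=
  comp R.unit f = R'.unit ∧ comp R.mul f = comp (tenHom f f) R'.mul

/-- `f` carries the complex orientation `o` of `R` to the complex orientation `o'` of `R'`. -/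
def Carries {R R' : RingSp T} (f : Hom R.obj R'.obj) (o : Oriented S R) (o' : Oriented S R') :
    Prop :=
  ∀ (n : ℕ) (A : Type) [Fintype A],
    comp (o.θ n A) (tenHom f (ident (S.obj (Cn n)))) = o'.θ n A

/-- `B`, with the complex orientation `o` and the homomorphism
`φ : ℤ[v_1, v_2, …] → π_* B`, is the Brown-Peterson spectrum at `p`: it is the initial `p`-local
commutative ring spectrum with a `p`-typical complex orientation. The elements `φ v_i` of
`π_{2(p^i-1)} B` are the Hazewinkel generators. -/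
structure IsBrownPeterson {B : RingSp T} (p : ℕ) (o : Oriented S B) (φ : GHom S p B) : Prop where
  typ : IsPTyp p o φ
  univ : ∀ (R : RingSp T) (o' : Oriented S R) (φ' : GHom S p R),
    IsPTyp p o' φ' → ∃! f : Hom B.obj R.obj, IsRingMap f ∧ Carries f o o'

/-- the elements `v_0 = p, v_1, v_2, …` of `ℤ[v_1, v_2, …]` -/
def vEl (p : ℕ) : ℕ → MvPolynomial ℕ ℤ
  | 0 => MvPolynomial.C (p : ℤ)
  | i + 1 => MvPolynomial.X i

theorem vEl_mem (p i : ℕ) : vEl p i ∈
    MvPolynomial.weightedHomogeneousSubmodule ℤ (fun i : ℕ => p ^ (i + 1) - 1) (p ^ i - 1) := by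
  rcases i with _ | i
  · exact MvPolynomial.isWeightedHomogeneous_C _ _
  · exact MvPolynomial.isWeightedHomogeneous_X _ _ _

/-- the elements `v_0 = p, v_1, v_2, …` of the homotopy of `R` -/
def hazV {R : RingSp T} {p : ℕ} (φ : GHom S p R) (i : ℕ) : Hom (S.obj (Cn (p ^ i - 1))) R.obj :=
  φ.val ⟨vEl p i, vEl_mem p i⟩

/-- `V(n)` exists at the prime `p`: the Brown-Peterson spectrum exists, and there is a finite
`p`-local spectrum `X` with `BP_* X ≅ BP_* / (p, v_1, …, v_n)` as comodules. -/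
def HasV (S : Susp T) (p n : ℕ) : Prop :=
  (∃ (B : RingSp T) (o : Oriented S B) (φ : GHom S p B), IsBrownPeterson p o φ) ∧
  ∃ X : T.C, FinPLocal p X ∧ ∀ (B : RingSp T) (o : Oriented S B) (φ : GHom S p B),
      IsBrownPeterson p o φ → IsSmithToda p n (hazV φ) X

end Vale.Agent.P257.St
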